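import Mathlib

/-! A map all of whose orbits spend a bounded number of steps away from two points
has zero topological entropy. -/

set_option autoImplicit false
open Filter Set Dynamics
open scoped Classical

namespace Crest.Agent.R123

lemma expGrowthSup_poly (u : ℕ → ENNReal) (K k : ℕ)
    (h : ∀ n, u n ≤ ((K * (n + 1) ^ k : ℕ) : ENNReal)) : ExpGrowth.expGrowthSup u ≤ 0 := by
  rw [ExpGrowth.expGrowthSup_le_iff]
  intro b hb
  obtain ⟨δ, h1, h2⟩ := EReal.lt_iff_exists_real_btwn.1 hb
  have hδ : 0 < δ := by exact_mod_cast h1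
  have hK : (0 : ℝ) < 1 / (K * 2 ^ k + 1) := by positivity
  have key := (isLittleO_pow_exp_pos_mul_atTop k hδ).bound hK
  have key2 := tendsto_natCast_atTop_atTop.eventually key
  filter_upwards [key2, eventually_ge_atTop 1] with n hn hn1
  refine (h n).trans ?_
  have e : EReal.exp ((δ : EReal) * n) ≤ EReal.exp (b * n) := by
    gcongr
  refine le_trans ?_ e
  have e2 : ((δ : EReal) * n) = ((δ * n : ℝ) : EReal) := by
    rw [EReal.coe_mul]; rfl
  rw [e2, EReal.exp_coe, ← ENNReal.ofReal_natCast]
  apply ENNReal.ofReal_le_ofReal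
  rw [Real.norm_of_nonneg (by positivity), Real.norm_of_nonneg (Real.exp_pos _).le] at hn
  have hn1' : (1 : ℝ) ≤ n := by exact_mod_cast hn1
  push_cast
  have h3 : ((n : ℝ) + 1) ^ k ≤ 2 ^ k * (n : ℝ) ^ k := by
    rw [← mul_pow]; gcongr; linarith
  rw [div_mul_eq_mul_div, one_mul, le_div_iff₀ (by positivity)] at hn
  have h4 : (0 : ℝ) ≤ (n : ℝ) ^ k := by positivity
  have h5 : (0 : ℝ) ≤ K := by positivity
  nlinarith [mul_le_mul_of_nonneg_left h3 h5]

/-- being near the first point outside `E`, or near the second point inside `E`. -/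
def Near {X : Type*} [MetricSpace X] (a b : X) (E : Set X) (ε : ℝ) (x : X) : Prop :=
  (x ∉ E ∧ dist x a < ε) ∨ (x ∈ E ∧ dist x b < ε)

theorem coverEntropy_eq_zero {X : Type*} [MetricSpace X] [CompactSpace X] [Nonempty X]
    (T : X → X) (a b : X) (E : Set X) (hE : MapsTo T E E)
    (h : ∀ ε > 0, ∃ C : ℕ, ∀ x N,
      ((Finset.range N).filter fun n => ¬ Near a b E ε (T^[n] x)).card ≤ C) :
    coverEntropy T univ = 0 := by
  refine le_antisymm ?_ (coverEntropy_nonneg T univ_nonempty)
  refine iSup₂_le fun U hU => ?_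
  obtain ⟨ε, hε, hU'⟩ := Metric.mem_uniformity_dist.1 hU
  obtain ⟨C, hC⟩ := h (ε / 2) (by positivity)
  obtain ⟨t, -, ht, hcov⟩ := finite_cover_balls_of_compact (isCompact_univ (X := X))
    (e := ε / 2) (by positivity)
  have hc : ∀ x : X, ∃ y ∈ ht.toFinset, dist x y < ε / 2 := by
    intro x
    obtain ⟨y, hy, hxy⟩ := mem_iUnion₂.1 (hcov (mem_univ x))
    exact ⟨y, ht.mem_toFinset.2 hy, hxy⟩
  choose c hc1 hc2 using hc
  apply expGrowthSup_poly _ ((C + 1) * (ht.toFinset.card + 1) ^ C) (C + 1)
  intro n
  have hex : ∀ x : X, ∃ i, n ≤ i ∨ T^[i] x ∈ E := fun x => ⟨n, Or.inl le_rfl⟩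
  let code : X → ℕ × Finset (ℕ × X) := fun x => (Nat.find (hex x),
    ((Finset.range n).filter fun i => ¬ Near a b E (ε / 2) (T^[i] x)).image
      fun i => (i, c (T^[i] x)))
  let A : Finset (ℕ × X) := Finset.range n ×ˢ ht.toFinset
  let codes : Finset (ℕ × Finset (ℕ × X)) := Finset.range (n + 1) ×ˢ
    (Finset.range (C + 1)).biUnion fun j => A.powersetCard j
  have hfind : ∀ x i, i < n → (T^[i] x ∈ E ↔ Nat.find (hex x) ≤ i) := by
    intro x i hi
    refine ⟨fun h => Nat.find_min' _ (Or.inr h), fun h => ?_⟩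
    rcases Nat.find_spec (hex x) with h1 | h1
    · omega
    · obtain ⟨d, rfl⟩ := Nat.exists_eq_add_of_le' h
      rw [Function.iterate_add_apply]
      exact hE.iterate d h1
  have hcode : ∀ x, code x ∈ codes := by
    intro x
    simp only [code, codes, Finset.mem_product, Finset.mem_range, Finset.mem_biUnion,
      Finset.mem_powersetCard]
    refine ⟨Nat.lt_succ_of_le (Nat.find_min' _ (Or.inl le_rfl)), _, ?_, ?_, rfl⟩
    · exact Nat.lt_succ_of_le (Finset.card_image_le.trans (hC x n))
    · intro z hz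
      obtain ⟨i, hi, rfl⟩ := Finset.mem_image.1 hz
      exact Finset.mem_product.2 ⟨(Finset.mem_filter.1 hi).1, hc1 _⟩
  have hclose : ∀ x y, code y = code x → ∀ i < n, dist (T^[i] x) (T^[i] y) < ε := by
    intro x y hxy i hi
    have h1 : Nat.find (hex y) = Nat.find (hex x) := congrArg Prod.fst hxy
    have h2 := congrArg Prod.snd hxy
    simp only [code] at h2
    have key : ∀ x y : X, (((Finset.range n).filter fun i => ¬ Near a b E (ε / 2) (T^[i] y)).image
        fun i => (i, c (T^[i] y))) = (((Finset.range n).filter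
        fun i => ¬ Near a b E (ε / 2) (T^[i] x)).image fun i => (i, c (T^[i] x))) →
        ¬ Near a b E (ε / 2) (T^[i] x) → dist (T^[i] x) (T^[i] y) < ε := by
      intro x y h2 hx
      have : (i, c (T^[i] x)) ∈ (((Finset.range n).filter
          fun i => ¬ Near a b E (ε / 2) (T^[i] y)).image fun i => (i, c (T^[i] y))) := by
        rw [h2]
        exact Finset.mem_image.2 ⟨i, Finset.mem_filter.2 ⟨Finset.mem_range.2 hi, hx⟩, rfl⟩
      obtain ⟨j, -, hj⟩ := Finset.mem_image.1 this
      obtain ⟨rfl, hj2⟩ := Prod.mk.inj hj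
      have := dist_triangle_right (T^[j] x) (T^[j] y) (c (T^[j] x))
      have h3 := hc2 (T^[j] x)
      have h4 := hc2 (T^[j] y)
      rw [hj2] at h4
      linarith
    by_cases hx : Near a b E (ε / 2) (T^[i] x)
    · by_cases hy : Near a b E (ε / 2) (T^[i] y)
      · have hiff : T^[i] x ∈ E ↔ T^[i] y ∈ E := by rw [hfind x i hi, hfind y i hi, h1]
        rcases hx with ⟨x1, x2⟩ | ⟨x1, x2⟩ <;> rcases hy with ⟨y1, y2⟩ | ⟨y1, y2⟩
        · linarith [dist_triangle_right (T^[i] x) (T^[i] y) a]
        · exact absurd (hiff.2 y1) x1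
        · exact absurd (hiff.1 x1) y1
        · linarith [dist_triangle_right (T^[i] x) (T^[i] y) b]
      · rw [dist_comm]; exact key y x h2.symm hy
    · exact key x y h2 hx
  have hcover : IsDynCoverOf T univ U n (codes.image (Function.invFun code) : Finset X) := by
    intro x _
    refine ⟨Function.invFun code (code x), ?_, ?_⟩
    · exact_mod_cast Finset.mem_image_of_mem _ (hcode x)
    · exact mem_dynEntourage.2 fun i hi =>
        hU' (hclose x _ (Function.invFun_eq ⟨x, rfl⟩) i hi)
  have hcard : codes.card ≤ (C + 1) * (ht.toFinset.card + 1) ^ C * (n + 1) ^ (C + 1) := by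
    have h1 : ((Finset.range (C + 1)).biUnion fun j => A.powersetCard j).card ≤
        (C + 1) * ((ht.toFinset.card + 1) * (n + 1)) ^ C := by
      refine Finset.card_biUnion_le.trans ?_
      refine (Finset.sum_le_card_nsmul _ _ (((ht.toFinset.card + 1) * (n + 1)) ^ C) ?_).trans
        (by simp)
      intro j hj
      rw [Finset.card_powersetCard]
      refine (Nat.choose_le_pow _ _).trans ?_
      have hA : A.card ≤ (ht.toFinset.card + 1) * (n + 1) := by
        simp only [A, Finset.card_product, Finset.card_range]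
        nlinarith
      exact (Nat.pow_le_pow_left hA j).trans
        (Nat.pow_le_pow_right (by positivity) (Nat.lt_succ_iff.1 (Finset.mem_range.1 hj)))
    simp only [codes, Finset.card_product, Finset.card_range]
    calc _ ≤ (n + 1) * ((C + 1) * ((ht.toFinset.card + 1) * (n + 1)) ^ C) := by gcongr
      _ = _ := by rw [mul_pow]; ring
  have := hcover.coverMincard_le_card.trans
    (Nat.cast_le.2 (Finset.card_image_le.trans hcard))
  exact_mod_cast ENat.toENNReal_mono this

/-- number of visits of an orbit to a set. -/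
noncomputable def visits {X : Type*} (T : X → X) (P : Set X) (x : X) (N : ℕ) : ℕ :=
  ((Finset.range N).filter fun n => T^[n] x ∈ P).card

lemma visits_le_add {X : Type*} (T : X → X) (P : Set X) (x : X) (k c : ℕ)
    (h : ∀ N, visits T P (T^[k] x) N ≤ c) (N : ℕ) : visits T P x N ≤ k + c := by
  unfold visits at *
  have : ((Finset.range N).filter fun n => T^[n] x ∈ P) ⊆ Finset.range k ∪
      ((Finset.range N).filter fun n => T^[n] (T^[k] x) ∈ P).image (· + k) := by
    intro n hn
    obtain ⟨h1, h2⟩ := Finset.mem_filter.1 hn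
    rcases lt_or_ge n k with h3 | h3
    · exact Finset.mem_union_left _ (Finset.mem_range.2 h3)
    · obtain ⟨d, rfl⟩ := Nat.exists_eq_add_of_le' h3
      refine Finset.mem_union_right _ (Finset.mem_image.2 ⟨d, Finset.mem_filter.2 ⟨?_, ?_⟩, rfl⟩)
      · rw [Finset.mem_range] at h1 ⊢; omega
      · rwa [← Function.iterate_add_apply]
  refine (Finset.card_le_card this).trans ((Finset.card_union_le _ _).trans ?_)
  rw [Finset.card_range]
  exact Nat.add_le_add_left (Finset.card_image_le.trans (h N)) _

lemma visits_le_of_inv {X : Type*} (T : X → X) (P A : Set X) (hA : MapsTo T A A) (c : ℕ)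
    (h : ∀ x ∈ A, x ∈ P → ∀ N, visits T P x N ≤ c) (x : X) (hx : x ∈ A) (N : ℕ) :
    visits T P x N ≤ c := by
  induction N generalizing x with
  | zero => simp [visits]
  | succ N ih =>
    by_cases hP : x ∈ P
    · exact h x hx hP _
    · refine le_trans ?_ (ih (T x) (hA hx))
      unfold visits
      rw [Finset.card_filter, Finset.card_filter, Finset.sum_range_succ']
      simp only [Function.iterate_succ_apply, Function.iterate_zero_apply, hP, if_false, add_zero]
      exact le_of_eq (by congr)

/-- times that are not within `L` of a visit to `B` are good. -/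
lemma card_bad_le {X : Type*} (T : X → X) (B : Set X) (G : X → Prop) (c L : ℕ)
    (hB : ∀ x N, visits T B x N ≤ c)
    (hG : ∀ x, (∀ i ≤ 2 * L, T^[i] x ∉ B) → G (T^[L] x)) (x : X) (N : ℕ) :
    ((Finset.range N).filter fun n => ¬ G (T^[n] x)).card ≤ L + c * (2 * L + 1) := by
  have : ((Finset.range N).filter fun n => ¬ G (T^[n] x)) ⊆ Finset.range L ∪
      ((Finset.range (N + L)).filter fun n => T^[n] x ∈ B).biUnion
        fun m => Finset.Icc (m - L) (m + L) := by
    intro n hn
    obtain ⟨h1, h2⟩ := Finset.mem_filter.1 hn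
    rcases lt_or_ge n L with h3 | h3
    · exact Finset.mem_union_left _ (Finset.mem_range.2 h3)
    · obtain ⟨d, rfl⟩ := Nat.exists_eq_add_of_le h3
      rw [Function.iterate_add_apply] at h2
      have h4 := mt (hG _) h2
      push Not at h4
      obtain ⟨i, hi, hi2⟩ := h4
      rw [← Function.iterate_add_apply] at hi2
      rw [Finset.mem_range] at h1
      refine Finset.mem_union_right _ (Finset.mem_biUnion.2 ⟨i + d,
        Finset.mem_filter.2 ⟨Finset.mem_range.2 (by omega), hi2⟩, Finset.mem_Icc.2 (by omega)⟩)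
  refine (Finset.card_le_card this).trans ((Finset.card_union_le _ _).trans ?_)
  rw [Finset.card_range]
  refine Nat.add_le_add_left (Finset.card_biUnion_le.trans ?_) _
  refine (Finset.sum_le_card_nsmul _ _ (2 * L + 1) ?_).trans ?_
  · intro m _
    rw [Nat.card_Icc]; omega
  · exact Nat.mul_le_mul_right _ (hB x (N + L))

end Crest.Agent.R123
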