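import Crest.Agent.R123.Map
import Crest.Agent.R123.Entropy

/-! Dynamics of the map: every orbit turns a bounded number of times around the circle. -/

set_option autoImplicit false
open Complex ComplexConjugate Filter Topology

noncomputable section
namespace Crest.Agent.R123

lemma tau_ff (x : MM) : tau (ff x) = tau x * cexp ((Real.pi / 2 * hx x : ℝ) * I) := rfl
lemma xi_ff (x : MM) :
    xi (ff x) = ((√(normSq (nx x) + (2 * eta x - 1) ^ 2))⁻¹ : ℝ) * nx x := rfl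
lemma eta_ff (x : MM) :
    eta (ff x) = (√(normSq (nx x) + (2 * eta x - 1) ^ 2))⁻¹ * (2 * eta x - 1) := rfl
lemma vv_ff {x : MM} (h : ‖vx x‖ ≤ 99) : vv (ff x) = vx x := ext_nrm h
lemma ww_ff {x : MM} (h : ‖wx x‖ ≤ 99) : ww (ff x) = wx x := ext_nrm h

lemma eta_le_one (x : MM) : eta x ≤ 1 := by nlinarith [xi_eta x, normSq_nonneg (xi x)]

lemma eta_ff_le {x : MM} {c : ℝ} (hc : 0 ≤ c) (h : 2 * eta x - 1 ≤ 0 ∨
    (2 * eta x - 1) ^ 2 ≤ c ^ 2 * (normSq (nx x) + (2 * eta x - 1) ^ 2)) : eta (ff x) ≤ c := by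
  have h1 := Real.sqrt_pos.2 (nx_pos x)
  have h2 := Real.sq_sqrt (nx_pos x).le
  rw [eta_ff, inv_mul_le_iff₀ h1]
  rcases h with h | h
  · exact h.trans (by positivity)
  · refine abs_le_of_sq_le_sq' ?_ (by positivity) |>.2
    rw [mul_pow, h2]; linarith

lemma eta_ff_le_neg {x : MM} {c : ℝ} (h0 : 2 * eta x - 1 ≤ 0)
    (h : c ^ 2 * (normSq (nx x) + (2 * eta x - 1) ^ 2) ≤ (2 * eta x - 1) ^ 2) :
    eta (ff x) ≤ -c := by
  have h1 := Real.sqrt_pos.2 (nx_pos x)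
  have h2 := Real.sq_sqrt (nx_pos x).le
  rw [eta_ff, inv_mul_le_iff₀ h1]
  have : √(normSq (nx x) + (2 * eta x - 1) ^ 2) * c ≤ -(2 * eta x - 1) := by
    refine abs_le_of_sq_le_sq' ?_ (by linarith) |>.2
    rw [mul_pow, h2]; linarith
  linarith

lemma eta_ff_nonneg {x : MM} (h : 1 / 2 ≤ eta x) : 0 ≤ eta (ff x) := by
  rw [eta_ff]
  exact mul_nonneg (by positivity) (by linarith)

lemma normSq_xi_ff (x : MM) :
    normSq (xi (ff x)) = normSq (nx x) / (normSq (nx x) + (2 * eta x - 1) ^ 2) := by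
  have h2 := Real.sq_sqrt (nx_pos x).le
  rw [xi_ff, map_mul, normSq_ofReal, ← mul_inv, ← sq, h2, div_eq_inv_mul]

lemma nx_low {x : MM} (h : eta x ≤ 3 / 5) : nx x = xi x ^ 2 := num_low _ _ _ _ h

lemma step_E {x : MM} (h : eta x ≤ 3 / 5) : eta (ff x) ≤ 3 / 10 := by
  apply eta_ff_le (by norm_num)
  rcases le_or_gt (2 * eta x - 1) 0 with h1 | h1
  · exact Or.inl h1
  · right
    rw [nx_low h, map_pow]
    have h2 : 16 / 25 ≤ normSq (xi x) := by nlinarith [xi_eta x]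
    nlinarith

lemma step_D {x : MM} (h : eta x ≤ 3 / 10) : eta (ff x) ≤ -(1 / 3) := by
  apply eta_ff_le_neg (by linarith)
  rw [nx_low (by linarith), map_pow]
  have h2 : normSq (xi x) ≤ 1 := by nlinarith [xi_eta x]
  nlinarith [normSq_nonneg (xi x)]

lemma step_half {x : MM} (h : nx x = xi x ^ 2) (h1 : eta x ≤ 0 ∨ 9 / 10 ≤ eta x) :
    normSq (xi (ff x)) ≤ normSq (xi x) / 2 := by
  rw [normSq_xi_ff, div_le_iff₀ (nx_pos x), h, map_pow]
  have h2 := xi_eta x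
  have h3 := normSq_nonneg (xi x)
  have h4 : 2 * normSq (xi x) ≤ normSq (xi x) ^ 2 + (2 * eta x - 1) ^ 2 := by
    rcases h1 with h1 | h1
    · nlinarith [sq_nonneg (normSq (xi x) - 1)]
    · nlinarith
  nlinarith

lemma escape {x : MM} {a : ℝ} {ζ : ℂ} (hζ : ‖ζ‖ = 1) (h : nx x = a * ζ ^ 2)
    (ha : 4 * (2 * eta x - 1) ≤ 3 * a) : eta (ff x) ≤ 3 / 5 := by
  apply eta_ff_le (by norm_num)
  rcases le_or_gt (2 * eta x - 1) 0 with h1 | h1
  · exact Or.inl h1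
  · right
    have : normSq (nx x) = a ^ 2 := by simp [h, normSq_eq_norm_sq, hζ]
    rw [this]
    nlinarith

/-! ### the circle coordinate -/

lemma re_im {τ : ℂ} (h : ‖τ‖ = 1) : τ.re ^ 2 + τ.im ^ 2 = 1 := by
  have := normSq_eq_norm_sq τ
  rw [h, normSq_apply] at this
  nlinarith

lemma one_le_add' {a b : ℝ} (ha : 0 ≤ a) (hb : 0 ≤ b) (h : a ^ 2 + b ^ 2 = 1) : 1 ≤ a + b := by
  nlinarith [mul_nonneg ha hb]

lemma h0_nonneg (τ : ℂ) : 0 ≤ h0 τ :=
  add_nonneg (sub_nonneg.2 (sg_le_one _ _ _)) (mul_nonneg (sg_nonneg _ _ _) (by positivity))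

lemma h0_le_one {τ : ℂ} (h : ‖τ‖ = 1) : h0 τ ≤ 1 := by
  have h1 := re_im h
  have h2 := sg_nonneg (-1) 1 (5 * τ.re - τ.im)
  have h3 : τ.im ^ 2 / 4 ≤ 1 := by nlinarith [sq_nonneg τ.re]
  unfold h0
  nlinarith

lemma h0_eq_one {τ : ℂ} (h : 5 * τ.re - τ.im ≤ -1) : h0 τ = 1 := by
  rw [h0, sg_zero (by norm_num) h]; simp

lemma h0_pos {τ : ℂ} (h : ‖τ‖ = 1) (h1 : τ ≠ 1) : 0 < h0 τ := by
  have h2 := re_im h
  by_cases h3 : τ.im = 0
  · have h4 : τ.re ≠ 1 := fun h4 => h1 (Complex.ext h4 h3)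
    have h5 : τ.re = -1 := by
      rw [h3] at h2
      have : (τ.re - 1) * (τ.re + 1) = 0 := by linarith
      rcases mul_eq_zero.1 this with h | h
      · exact absurd (by linarith) h4
      · linarith
    rw [h0_eq_one (by rw [h3, h5]; norm_num)]
    norm_num
  · have h4 : 0 < τ.im ^ 2 / 4 := by positivity
    have h5 : τ.im ^ 2 / 4 ≤ 1 := by nlinarith [sq_nonneg τ.re]
    have h6 := sg_nonneg (-1) 1 (5 * τ.re - τ.im)
    have h7 := sg_le_one (-1) 1 (5 * τ.re - τ.im)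
    unfold h0
    nlinarith

lemma ps_nonneg (η : ℝ) (v w : ℂ) : 0 ≤ ps η v w := by
  refine mul_nonneg (sg_nonneg _ _ _) (sub_nonneg.2 ?_)
  exact mul_le_one₀ (sg_le_one _ _ _) (sub_nonneg.2 (sg_le_one _ _ _))
    (by linarith [sg_nonneg 10 16 (normSq v + normSq w)])

lemma ps_le_one (η : ℝ) (v w : ℂ) : ps η v w ≤ 1 := by
  have := mul_nonneg (sg_nonneg (9 / 10) (19 / 20) η)
    (sub_nonneg.2 (sg_le_one 10 16 (normSq v + normSq w)))
  have h2 := ps_nonneg η v w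
  have h3 := sg_le_one (-1 / 3) 0 η
  have h4 := sg_nonneg (-1 / 3) 0 η
  unfold ps
  nlinarith

lemma h0_le_hx (x : MM) : h0 (tau x) ≤ hx x :=
  le_add_of_nonneg_right (mul_nonneg (sub_nonneg.2 (h0_le_one (norm_tau x))) (ps_nonneg _ _ _))

lemma ps_le_hx (x : MM) : ps (eta x) (vv x) (ww x) ≤ hx x := by
  have := mul_nonneg (h0_nonneg (tau x)) (sub_nonneg.2 (ps_le_one (eta x) (vv x) (ww x)))
  unfold hx hh
  nlinarith

lemma hx_nonneg (x : MM) : 0 ≤ hx x := (h0_nonneg _).trans (h0_le_hx x)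

lemma hx_le_one (x : MM) : hx x ≤ 1 := by
  have := mul_le_mul_of_nonneg_left (ps_le_one (eta x) (vv x) (ww x))
    (sub_nonneg.2 (h0_le_one (norm_tau x)))
  unfold hx hh
  linarith

lemma tau_ff_rot {x : MM} (h : 5 * (tau x).re - (tau x).im ≤ -1) :
    (tau (ff x)).re = -(tau x).im ∧ (tau (ff x)).im = (tau x).re := by
  have : hx x = 1 := by rw [hx, hh, h0_eq_one h]; simp
  rw [tau_ff, this, mul_one]
  push_cast
  rw [Complex.exp_pi_div_two_mul_I]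
  simp

def ZZ (τ : ℂ) : Prop := 1 / 2 ≤ τ.re - τ.im ∧ τ.im ≤ 0

lemma ZZ_step {x : MM} (h : ZZ (tau x)) (hp : ps (eta x) (vv x) (ww x) = 0) :
    ZZ (tau (ff x)) := by
  have e : hx x = h0 (tau x) := by rw [hx, hh, hp]; simp
  have hn := re_im (norm_tau x)
  have hn' := re_im (norm_tau (ff x))
  have h1 := h0_nonneg (tau x)
  have h2 := h0_le_one (norm_tau x)
  obtain ⟨z1, z2⟩ := h
  have ere : (tau (ff x)).re = (tau x).re * Real.cos (Real.pi / 2 * h0 (tau x)) -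
      (tau x).im * Real.sin (Real.pi / 2 * h0 (tau x)) := by
    rw [tau_ff, e, mul_re, exp_ofReal_mul_I_re, exp_ofReal_mul_I_im]
  have eim : (tau (ff x)).im = (tau x).re * Real.sin (Real.pi / 2 * h0 (tau x)) +
      (tau x).im * Real.cos (Real.pi / 2 * h0 (tau x)) := by
    rw [tau_ff, e, mul_im, exp_ofReal_mul_I_re, exp_ofReal_mul_I_im]
  have hpi := Real.pi_pos
  have ha0 : 0 ≤ Real.pi / 2 * h0 (tau x) := by positivity
  have ha1 : Real.pi / 2 * h0 (tau x) ≤ Real.pi / 2 := by nlinarith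
  have hs := Real.sin_nonneg_of_nonneg_of_le_pi ha0 (by linarith)
  have hc := Real.cos_nonneg_of_neg_pi_div_two_le_of_le (by linarith) ha1
  have hcs := one_le_add' hc hs (Real.cos_sq_add_sin_sq _)
  rcases le_or_gt (tau x).re 0 with hX | hX
  · have h3 : 1 ≤ -(tau x).re + -(tau x).im :=
      one_le_add' (by linarith) (by linarith) (by nlinarith)
    constructor
    · rw [ere, eim]
      nlinarith [mul_le_mul_of_nonneg_right z1 hc, mul_le_mul_of_nonneg_right h3 hs]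
    · rw [eim]
      nlinarith [mul_nonneg (neg_nonneg.2 hX) hs, mul_nonneg (neg_nonneg.2 z2) hc]
  · have h3 : 1 ≤ (tau x).re + -(tau x).im := one_le_add' hX.le (by linarith) (by nlinarith)
    have h4 : h0 (tau x) = (tau x).im ^ 2 / 4 := by
      rw [h0, sg_one (by norm_num) (by linarith)]; simp
    have hY : (tau (ff x)).im ≤ 0 := by
      rw [eim]
      have hpi4 := Real.pi_le_four
      have h5 : (tau x).im ^ 2 ≤ 1 := by nlinarith [sq_nonneg (tau x).re]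
      have h6 : Real.pi / 2 * h0 (tau x) ≤ (tau x).im ^ 2 / 2 := by
        rw [h4]; nlinarith [sq_nonneg (tau x).im]
      have h7 := (Real.sin_le ha0).trans h6
      have h8 := Real.one_sub_sq_div_two_le_cos (x := Real.pi / 2 * h0 (tau x))
      have h9 : 1 / 2 ≤ Real.cos (Real.pi / 2 * h0 (tau x)) := by nlinarith
      have h10 : (tau x).re ≤ 1 := by nlinarith [sq_nonneg (tau x).im]
      have h11 : (tau x).im ^ 2 ≤ -(tau x).im := by nlinarith
      nlinarith [mul_le_mul_of_nonneg_right h10 hs, mul_le_mul_of_nonneg_left h9 (neg_nonneg.2 z2)]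
    have hX' : 0 ≤ (tau (ff x)).re := by
      rw [ere]
      linarith [mul_nonneg hX.le hc, mul_nonneg (neg_nonneg.2 z2) hs]
    have := one_le_add' hX' (neg_nonneg.2 hY) (by rw [neg_sq]; exact hn')
    exact ⟨by linarith, hY⟩

lemma Q_step {x : MM} (h1 : (tau x).re ≤ 0) (h2 : (tau x).im ≤ 0)
    (h3 : (tau x).re - (tau x).im < 1 / 2) : ZZ (tau (ff x)) := by
  have hn := re_im (norm_tau x)
  have h4 : 1 ≤ -(tau x).re + -(tau x).im :=
    one_le_add' (by linarith) (by linarith) (by nlinarith)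
  obtain ⟨e1, e2⟩ := tau_ff_rot (x := x) (by
    by_contra hc
    have k1 : -(3 / 8) < (tau x).re := by linarith
    have k2 : -(7 / 8) < (tau x).im := by linarith
    nlinarith)
  rw [ZZ, e1, e2]
  exact ⟨by linarith, h1⟩

/-! ### good states -/

def Good (x : MM) : Prop :=
  ZZ (tau x) ∧ ∃ (ζ : ℂ) (ν r : ℝ), ‖ζ‖ = 1 ∧ 0 ≤ ν ∧ xi x = ν * ζ ∧ vv x = (Psi r ζ).1 ∧
    ww x = (Psi r ζ).2 ∧ (r ≤ 5 / 4 → ν ^ 2 ≤ 1 / 16 ∧ 0 ≤ eta x)

def Pre (x : MM) : Prop :=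
  (tau x).re ≤ 0 ∧ (tau x).im ≤ 0 ∧ ∃ (ζ : ℂ) (ν : ℝ), ‖ζ‖ = 1 ∧ 0 ≤ ν ∧ xi x = ν * ζ ∧
    (-1 / 2 ≤ (tau x).re - (tau x).im →
      vv x = (Psi (20 * ν ^ 2) ζ).1 ∧ ww x = (Psi (20 * ν ^ 2) ζ).2)

lemma normSq_polar (ν : ℝ) {ζ : ℂ} (hζ : ‖ζ‖ = 1) : normSq (ν * ζ) = ν ^ 2 := by
  simp [normSq_eq_norm_sq, hζ]

lemma enc_eq (τ : ℂ) (η ν : ℝ) {ζ : ℂ} (hζ : ‖ζ‖ = 1) :
    enc τ (ν * ζ) η = Psi (ss τ (ν * ζ) η * ν ^ 2) (ζ ^ 2) := by
  rw [enc, normSq_polar ν hζ]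
  by_cases h : ν = 0
  · simp [h, Psi_zero]
  · rw [ph_eq h hζ]

lemma norm_sq_one {ζ : ℂ} (hζ : ‖ζ‖ = 1) : ‖ζ ^ 2‖ = 1 := by rw [norm_pow, hζ, one_pow]

lemma xi_ff_polar {x : MM} {a : ℝ} {ζ : ℂ} (h : nx x = a * ζ ^ 2) :
    xi (ff x) = ((√(normSq (nx x) + (2 * eta x - 1) ^ 2))⁻¹ * a : ℝ) * ζ ^ 2 := by
  rw [xi_ff]
  generalize (√(normSq (nx x) + (2 * eta x - 1) ^ 2))⁻¹ = d
  rw [h]; push_cast; ring

/-- conclusion of a step, given the new register contents. -/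
lemma good_of {x : MM} {a r : ℝ} {ζ : ℂ} (hζ : ‖ζ‖ = 1) (hZ : ZZ (tau (ff x))) (ha : 0 ≤ a)
    (h : nx x = a * ζ ^ 2) (hv : vx x = (Psi r (ζ ^ 2)).1) (hw : wx x = (Psi r (ζ ^ 2)).2)
    (hη : 1 / 2 ≤ eta x) (hs : r ≤ 5 / 4 → normSq (xi (ff x)) ≤ 1 / 16) : Good (ff x) := by
  have hζ2 := norm_sq_one hζ
  obtain ⟨b1, b2⟩ := norm_Psi r hζ2.le
  refine ⟨hZ, ζ ^ 2, _, r, hζ2, by positivity, xi_ff_polar h, ?_, ?_, fun hr => ⟨?_, ?_⟩⟩
  · rw [vv_ff (by rw [hv]; linarith), hv]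
  · rw [ww_ff (by rw [hw]; linarith), hw]
  · rw [← normSq_polar _ hζ2, ← xi_ff_polar h]; exact hs hr
  · exact eta_ff_nonneg hη

lemma nx_eq {x : MM} {ν Γ : ℝ} {ζ : ℂ} (h1 : xi x = ν * ζ) (h2 : dec (vv x) (ww x) = Γ * ζ ^ 2) :
    nx x = (ν ^ 2 + sg (3 / 5) (2 / 3) (eta x) * sg (-1 / 2) 0 ((tau x).re - (tau x).im) * Γ : ℝ) *
      ζ ^ 2 := by
  rw [nx, num, h1, h2]; push_cast; ring

lemma escape' {x : MM} {ν Γ : ℝ} {ζ : ℂ} (hζ : ‖ζ‖ = 1) (h1 : xi x = ν * ζ)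
    (h2 : dec (vv x) (ww x) = Γ * ζ ^ 2) (hΓ : 2 ≤ Γ) (hl : 0 ≤ (tau x).re - (tau x).im)
    (hη : 3 / 5 < eta x) : eta (ff x) ≤ 3 / 5 := by
  refine escape hζ (nx_eq h1 h2) ?_
  rw [sg_one (a := -1 / 2) (by norm_num) hl, mul_one]
  have h3 := xi_eta x
  rw [h1, normSq_polar ν hζ] at h3
  rcases le_or_gt (eta x) (2 / 3) with h4 | h4
  · nlinarith [mul_nonneg (sg_nonneg (3 / 5) (2 / 3) (eta x)) (show 0 ≤ Γ by linarith)]
  · rw [sg_one (by norm_num) h4.le]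
    nlinarith [eta_le_one x, sq_nonneg ν]

lemma good_step {x : MM} (h : Good x) (hη : 3 / 5 < eta x) :
    Good (ff x) ∨ eta (ff x) ≤ 3 / 5 := by
  obtain ⟨hZ, ζ, ν, r, hζ, hν, h1, h2, h3, h4⟩ := h
  obtain ⟨Γ, g0, g1, g2, g3⟩ := dec_Psi r hζ
  rw [← h2, ← h3] at g1
  rcases le_or_gt r (5 / 4) with hr | hr
  · left
    obtain ⟨s1, s2⟩ := h4 hr
    have h5 := xi_eta x
    rw [h1, normSq_polar ν hζ] at h5
    have h6 : 19 / 20 ≤ eta x := by nlinarith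
    obtain ⟨b1, b2⟩ := norm_Psi_small hr hζ.le
    rw [← h2] at b1
    rw [← h3] at b2
    have hp : ps (eta x) (vv x) (ww x) = 0 := by
      rw [ps, sg_one (a := 9 / 10) (by norm_num) h6, sg_zero (a := 10) (by norm_num)]
      · simp
      · rw [normSq_eq_norm_sq, normSq_eq_norm_sq]
        nlinarith [norm_nonneg (vv x), norm_nonneg (ww x)]
    obtain ⟨d1, d2⟩ := Psi_double hr hζ.le
    refine good_of (r := 2 * r) hζ (ZZ_step hZ hp) ?_ (nx_eq h1 g1) ?_ ?_ (by linarith) ?_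
    · have := mul_nonneg (mul_nonneg (sg_nonneg (3 / 5) (2 / 3) (eta x))
        (sg_nonneg (-1 / 2) 0 ((tau x).re - (tau x).im))) g0
      positivity
    · rw [vx, yy, sg_one (by norm_num) (by linarith), sg_one (a := 0) (by norm_num) hZ.1, h2, d1]
      simp
    · rw [wx, yy, sg_one (by norm_num) (by linarith), sg_one (a := 0) (by norm_num) hZ.1, h3, d2]
      simp
    · intro hr2
      have e : nx x = xi x ^ 2 := by
        rw [nx_eq h1 g1, g2 (by linarith), h1]; push_cast; ring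
      have := step_half e (Or.inr (by linarith))
      rw [h1, normSq_polar ν hζ] at this
      linarith
  · exact Or.inr (escape' hζ h1 g1 (g3 hr.le) (by linarith [hZ.1]) hη)

lemma P_step {x : MM} (h1 : (tau x).re ≤ 0) (h2 : 0 ≤ (tau x).im) (hη : 3 / 5 < eta x) :
    Pre (ff x) := by
  have hn := re_im (norm_tau x)
  have h4 : 1 ≤ -(tau x).re + (tau x).im := one_le_add' (by linarith) h2 (by nlinarith)
  obtain ⟨e1, e2⟩ := tau_ff_rot (x := x) (by linarith)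
  have hζ : ‖cexp (arg (xi x) * I)‖ = 1 := Complex.norm_exp_ofReal_mul_I _
  have h5 : xi x = (‖xi x‖ : ℝ) * cexp (arg (xi x) * I) :=
    (Complex.norm_mul_exp_arg_mul_I _).symm
  generalize cexp (arg (xi x) * I) = ζ at hζ h5
  have hν := norm_nonneg (xi x)
  generalize ‖xi x‖ = ν at hν h5
  have hζ2 := norm_sq_one hζ
  have e : nx x = xi x ^ 2 := by
    rw [nx, num, sg_zero (a := -1 / 2) (by norm_num) (by linarith)]; simp
  have e' : nx x = (ν ^ 2 : ℝ) * ζ ^ 2 := by rw [e, h5]; push_cast; ring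
  refine ⟨by linarith, by linarith, ζ ^ 2, _, hζ2, by positivity, xi_ff_polar e', fun hl => ?_⟩
  rw [← normSq_polar _ hζ2, ← xi_ff_polar e', normSq_xi_ff, e, map_pow]
  have k : enc (tau x) (xi x) (eta x) =
      Psi (20 * (normSq (xi x) ^ 2 / (normSq (xi x) ^ 2 + (2 * eta x - 1) ^ 2))) (ζ ^ 2) := by
    rw [h5, enc_eq _ _ _ hζ, ss, sg_zero (by norm_num) (by linarith), normSq_polar ν hζ]
    congr 1
    ring
  obtain ⟨b1, b2⟩ := norm_Psi
    (20 * (normSq (xi x) ^ 2 / (normSq (xi x) ^ 2 + (2 * eta x - 1) ^ 2))) hζ2.le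
  have ky : ∀ v e : ℂ, yy (tau x) (eta x) v e = e := by
    intro v e
    rw [yy, sg_one (by norm_num) (by linarith), sg_zero (a := 0) (by norm_num) (by linarith),
      sg_one (by norm_num) (by linarith)]
    simp
  have hv : vx x = _ := (ky _ _).trans (congrArg Prod.fst k)
  have hw : wx x = _ := (ky _ _).trans (congrArg Prod.snd k)
  rw [vv_ff (by rw [hv]; linarith), ww_ff (by rw [hw]; linarith)]
  exact ⟨hv, hw⟩

lemma pre_step {x : MM} (h : Pre x) (hη : 3 / 5 < eta x) :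
    Good (ff x) ∨ eta (ff x) ≤ 3 / 5 := by
  obtain ⟨q1, q2, ζ, ν, hζ, hν, h1, h2⟩ := h
  have hn := re_im (norm_tau x)
  have h4 : 1 ≤ -(tau x).re + -(tau x).im :=
    one_le_add' (by linarith) (by linarith) (by nlinarith)
  have h5 := xi_eta x
  rw [h1, normSq_polar ν hζ] at h5
  rcases le_or_gt (1 / 2) ((tau x).re - (tau x).im) with hl | hl
  · obtain ⟨a1, a2⟩ := h2 (by linarith)
    exact good_step ⟨⟨hl, q2⟩, ζ, ν, _, hζ, hν, h1, a1, a2,
      fun hr => ⟨by linarith, by linarith⟩⟩ hη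
  have hZ := Q_step q1 q2 hl
  have ky : ∀ v e : ℂ, ((tau x).re - (tau x).im ≤ 0 ∨ 16 * v = e) →
      yy (tau x) (eta x) v e = e := by
    intro v e hve
    rw [yy, sg_one (by norm_num) (by linarith), sg_one (a := -1) (by norm_num) (by linarith)]
    rcases hve with h | h
    · rw [sg_zero (by norm_num) h]; simp
    · rw [h]; push_cast; ring
  have k := enc_eq (tau x) (eta x) ν hζ
  rw [← h1] at k
  rcases le_or_gt ((tau x).re - (tau x).im) (-1 / 2) with hl2 | hl2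
  · left
    have e : nx x = xi x ^ 2 := by
      rw [nx, num, sg_zero (a := -1 / 2) (by norm_num) hl2]; simp
    have e' : nx x = (ν ^ 2 : ℝ) * ζ ^ 2 := by rw [e, h1]; push_cast; ring
    refine good_of hζ hZ (by positivity) e'
      ((ky _ _ (Or.inl (by linarith))).trans (congrArg Prod.fst k))
      ((ky _ _ (Or.inl (by linarith))).trans (congrArg Prod.snd k)) (by linarith) fun hr => ?_
    rw [normSq_xi_ff, e, map_pow]
    rw [ss] at hr
    have hd := den_pos (xi_eta x)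
    rw [h1, normSq_polar ν hζ] at hr hd ⊢
    have k1 := sg_nonneg (-1) (-1 / 2) ((tau x).re - (tau x).im)
    have k2 := sg_le_one (-1) (-1 / 2) ((tau x).re - (tau x).im)
    have k3 : ν ^ 2 / ((ν ^ 2) ^ 2 + (2 * eta x - 1) ^ 2) ≤ 2 := by
      rw [div_le_iff₀ hd]
      rcases le_or_gt (1 / 2) (ν ^ 2) with k4 | k4
      · nlinarith [sq_nonneg (2 * eta x - 1)]
      · have : 7 / 10 ≤ eta x := by nlinarith
        nlinarith [sq_nonneg (ν ^ 2 - 1 / 4)]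
    have k4 : (ν ^ 2) ^ 2 / ((ν ^ 2) ^ 2 + (2 * eta x - 1) ^ 2) =
        ν ^ 2 / ((ν ^ 2) ^ 2 + (2 * eta x - 1) ^ 2) * ν ^ 2 := by ring
    rw [k4]
    generalize ν ^ 2 / ((ν ^ 2) ^ 2 + (2 * eta x - 1) ^ 2) = t at *
    nlinarith [mul_nonneg (mul_nonneg k1 (sub_nonneg.2 k3)) (sq_nonneg ν)]
  obtain ⟨a1, a2⟩ := h2 hl2.le
  obtain ⟨Γ, g0, g1, g2, g3⟩ := dec_Psi (20 * ν ^ 2) hζ
  rw [← a1, ← a2] at g1
  have k' : enc (tau x) (xi x) (eta x) = Psi (2 * (20 * ν ^ 2)) (ζ ^ 2) := by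
    rw [k, ss, sg_one (by norm_num) hl2.le]
    congr 1
    ring
  have main : ((tau x).re - (tau x).im ≤ 0 ∨ 20 * ν ^ 2 ≤ 5 / 4) → Good (ff x) := by
    intro hc
    refine good_of (r := 2 * (20 * ν ^ 2)) hζ hZ ?_ (nx_eq h1 g1)
      ((ky _ _ (hc.imp_right fun hr => ?_)).trans (congrArg Prod.fst k'))
      ((ky _ _ (hc.imp_right fun hr => ?_)).trans (congrArg Prod.snd k')) (by linarith)
      fun hr => ?_
    · have := mul_nonneg (mul_nonneg (sg_nonneg (3 / 5) (2 / 3) (eta x))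
        (sg_nonneg (-1 / 2) 0 ((tau x).re - (tau x).im))) g0
      positivity
    · rw [k', a1, (Psi_double hr hζ.le).1]
    · rw [k', a2, (Psi_double hr hζ.le).2]
    · have e : nx x = xi x ^ 2 := by
        rw [nx_eq h1 g1, g2 (by linarith), h1]; push_cast; ring
      have := step_half e (Or.inr (by nlinarith))
      rw [h1, normSq_polar ν hζ] at this
      linarith
  rcases le_or_gt (20 * ν ^ 2) (5 / 4) with hr | hr
  · exact Or.inl (main (Or.inr hr))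
  rcases le_or_gt ((tau x).re - (tau x).im) 0 with hl3 | hl3
  · exact Or.inl (main (Or.inl hl3))
  · exact Or.inr (escape' hζ h1 g1 (g3 hr.le) hl3.le hη)

end Crest.Agent.R123
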