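import Crest.Agent.R123.Hopf

/-! Suspension-type classes in second singular homology, and their detection. -/

set_option autoImplicit false
open Complex ComplexConjugate CategoryTheory Simplicial Opposite

noncomputable section
namespace Crest.Agent.R123

abbrev RR : ModuleCat.{0} ℝ := ModuleCat.of ℝ ℝ

abbrev CC (X : TopCat.{0}) : ChainComplex (ModuleCat.{0} ℝ) ℕ :=
  (TopCat.toSSet.obj X).chainComplex RR

abbrev HF : TopCat.{0} ⥤ ModuleCat.{0} ℝ :=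
  (AlgebraicTopology.singularHomologyFunctor (ModuleCat.{0} ℝ) 2).obj RR

abbrev Hm {X Y : TopCat.{0}} (f : X ⟶ Y) : (CC X).homology 2 ⟶ (CC Y).homology 2 :=
  HomologicalComplex.homologyMap (SSet.chainComplexMap (TopCat.toSSet.map f) RR) 2

@[fun_prop]
lemma continuous_coord {n : ℕ} (i : Fin (n + 1)) : Continuous fun x : Dl n => x.1 i :=
  (continuous_apply i).comp continuous_subtype_val

/-- the chain given by a singular simplex. -/
def sx {X : TopCat.{0}} {n : ℕ} (σ : C(Dl n, X)) : RR ⟶ (CC X).X n :=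
  (TopCat.toSSet.obj X).ιChainComplex ((X.toSSetObjEquiv (op ⦋n⦌)).symm σ)

lemma sx_d {X : TopCat.{0}} {n : ℕ} (σ : C(Dl (n + 1), X)) :
    sx σ ≫ (CC X).d (n + 1) n = ∑ i : Fin (n + 2), (-1) ^ i.val •
      sx (σ.comp ⟨stdSimplex.map i.succAbove, stdSimplex.continuous_map _⟩) := by
  rw [sx, SSet.ιChainComplex_d]
  rfl

lemma sx_map {X Y : TopCat.{0}} {n : ℕ} (σ : C(Dl n, X)) (f : X ⟶ Y) :
    sx σ ≫ (SSet.chainComplexMap (TopCat.toSSet.map f) RR).f n = sx (f.hom.comp σ) := by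
  rw [sx, SSet.ι_chainComplexMap_f]
  rfl

/-- affine simplex in the plane. -/
def aff {n : ℕ} (a : Fin (n + 1) → ℝ × ℝ) : C(Dl n, ℝ × ℝ) :=
  ⟨fun x => ∑ i, x.1 i • a i, by fun_prop⟩

lemma aff_map {n m : ℕ} (a : Fin (n + 1) → ℝ × ℝ) (e : Fin (m + 1) → Fin (n + 1)) (x : Dl m) :
    aff a (stdSimplex.map e x) = aff (a ∘ e) x := by
  change ∑ i, (FunOnFinite.linearMap ℝ ℝ e x) i • a i = ∑ i, x.1 i • a (e i)
  simp only [FunOnFinite.linearMap_apply_apply, Finset.sum_smul]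
  rw [← Finset.sum_fiberwise Finset.univ e]
  refine Finset.sum_congr rfl fun j _ => Finset.sum_congr rfl fun i hi => ?_
  rw [(Finset.mem_filter.1 hi).2]
  rfl

lemma aff_fst {n : ℕ} (a : Fin (n + 1) → ℝ × ℝ) (c : ℝ) (h : ∀ i, (a i).1 = c) (x : Dl n) :
    (aff a x).1 = c := by
  change (∑ i, x.1 i • a i).1 = c
  simp only [Prod.fst_sum, Prod.smul_fst, h, smul_eq_mul, ← Finset.sum_mul, x.2.2, one_mul]

lemma aff_affine {n : ℕ} (a b : Fin (n + 1) → ℝ × ℝ) (c d : ℝ) (h1 : ∀ i, (b i).1 = (a i).1)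
    (h2 : ∀ i, (b i).2 = c * (a i).2 + d) (x : Dl n) :
    aff b x = ((aff a x).1, c * (aff a x).2 + d) := by
  change ∑ i, x.1 i • b i = ((∑ i, x.1 i • a i).1, c * (∑ i, x.1 i • a i).2 + d)
  ext
  · simp only [Prod.fst_sum, Prod.smul_fst, h1]
  · simp only [Prod.snd_sum, Prod.smul_snd, h2, smul_eq_mul, mul_add, Finset.sum_add_distrib,
      ← Finset.sum_mul, x.2.2, one_mul, Finset.mul_sum]
    congr 1
    exact Finset.sum_congr rfl fun i _ => by ring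

variable {X Y : TopCat.{0}}

def sq (Q : C(ℝ × ℝ, X)) {n : ℕ} (a : Fin (n + 1) → ℝ × ℝ) : RR ⟶ (CC X).X n :=
  sx (Q.comp (aff a))

lemma sq_d (Q : C(ℝ × ℝ, X)) {n : ℕ} (a : Fin (n + 2) → ℝ × ℝ) :
    sq Q a ≫ (CC X).d (n + 1) n = ∑ i : Fin (n + 2), (-1) ^ i.val • sq Q (a ∘ i.succAbove) := by
  rw [sq, sx_d]
  refine Finset.sum_congr rfl fun i _ => ?_
  congr 2
  ext x
  exact congrArg Q (aff_map _ _ _)

lemma sq_d2 (Q : C(ℝ × ℝ, X)) (p q r : ℝ × ℝ) :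
    sq Q ![p, q, r] ≫ (CC X).d 2 1 = sq Q ![q, r] - sq Q ![p, r] + sq Q ![p, q] := by
  rw [sq_d, Fin.sum_univ_three]
  have e0 : ![p, q, r] ∘ (0 : Fin 3).succAbove = ![q, r] := by funext k; fin_cases k <;> rfl
  have e1 : ![p, q, r] ∘ (1 : Fin 3).succAbove = ![p, r] := by funext k; fin_cases k <;> rfl
  have e2 : ![p, q, r] ∘ (2 : Fin 3).succAbove = ![p, q] := by funext k; fin_cases k <;> rfl
  rw [e0, e1, e2]
  have v1 : ((1 : Fin 3) : ℕ) = 1 := rfl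
  have v2 : ((2 : Fin 3) : ℕ) = 2 := rfl
  rw [v1, v2]
  simp [sub_eq_add_neg]

lemma sq_d3 (Q : C(ℝ × ℝ, X)) (p q r s : ℝ × ℝ) :
    sq Q ![p, q, r, s] ≫ (CC X).d 3 2 =
      sq Q ![q, r, s] - sq Q ![p, r, s] + sq Q ![p, q, s] - sq Q ![p, q, r] := by
  rw [sq_d, Fin.sum_univ_four]
  have e0 : ![p, q, r, s] ∘ (0 : Fin 4).succAbove = ![q, r, s] := by
    funext k; fin_cases k <;> rfl
  have e1 : ![p, q, r, s] ∘ (1 : Fin 4).succAbove = ![p, r, s] := by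
    funext k; fin_cases k <;> rfl
  have e2 : ![p, q, r, s] ∘ (2 : Fin 4).succAbove = ![p, q, s] := by
    funext k; fin_cases k <;> rfl
  have e3 : ![p, q, r, s] ∘ (3 : Fin 4).succAbove = ![p, q, r] := by
    funext k; fin_cases k <;> rfl
  rw [e0, e1, e2, e3]
  have v1 : ((1 : Fin 4) : ℕ) = 1 := rfl
  have v2 : ((2 : Fin 4) : ℕ) = 2 := rfl
  have v3 : ((3 : Fin 4) : ℕ) = 3 := rfl
  rw [v1, v2, v3]
  simp [sub_eq_add_neg, pow_succ]

lemma sq_congr {Q Q' : C(ℝ × ℝ, X)} {n : ℕ} {a b : Fin (n + 1) → ℝ × ℝ}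
    (h : ∀ x, Q (aff a x) = Q' (aff b x)) : sq Q a = sq Q' b := by
  unfold sq
  congr 1
  ext x
  exact h x

/-- maps of the plane that factor through the suspension of the circle. -/
structure Susp (Q : C(ℝ × ℝ, X)) : Prop where
  zero : ∀ θ, Q (0, θ) = Q (0, 0)
  one : ∀ θ, Q (1, θ) = Q (1, 0)
  per : ∀ s θ, Q (s, θ + 1) = Q (s, θ)

lemma Susp.sq_zero {Q : C(ℝ × ℝ, X)} (h : Susp Q) {n : ℕ} (a b : Fin (n + 1) → ℝ × ℝ)
    (ha : ∀ i, (a i).1 = 0) (hb : ∀ i, (b i).1 = 0) : sq Q a = sq Q b := by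
  refine sq_congr fun x => ?_
  rw [← Prod.mk.eta (p := aff a x), ← Prod.mk.eta (p := aff b x), aff_fst a 0 ha, aff_fst b 0 hb,
    h.zero, h.zero (aff b x).2]

lemma Susp.sq_one {Q : C(ℝ × ℝ, X)} (h : Susp Q) {n : ℕ} (a b : Fin (n + 1) → ℝ × ℝ)
    (ha : ∀ i, (a i).1 = 1) (hb : ∀ i, (b i).1 = 1) : sq Q a = sq Q b := by
  refine sq_congr fun x => ?_
  rw [← Prod.mk.eta (p := aff a x), ← Prod.mk.eta (p := aff b x), aff_fst a 1 ha, aff_fst b 1 hb,
    h.one, h.one (aff b x).2]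

lemma Susp.sq_per {Q : C(ℝ × ℝ, X)} (h : Susp Q) {n : ℕ} (a b : Fin (n + 1) → ℝ × ℝ)
    (h1 : ∀ i, (b i).1 = (a i).1) (h2 : ∀ i, (b i).2 = (a i).2 + 1) : sq Q b = sq Q a := by
  refine sq_congr fun x => ?_
  rw [aff_affine a b 1 1 h1 (by simpa using h2), one_mul, h.per]

/-- the chain attached to the rectangle `[0,1] × [a,b]`. -/
def zz (Q : C(ℝ × ℝ, X)) (a b : ℝ) : RR ⟶ (CC X).X 2 :=
  sq Q ![(0, a), (1, a), (1, b)] - sq Q ![(0, a), (0, b), (1, b)] -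
    sq Q ![(1, 0), (1, 0), (1, 0)] + sq Q ![(0, 0), (0, 0), (0, 0)]

lemma Susp.zz_d {Q : C(ℝ × ℝ, X)} (h : Susp Q) (a b : ℝ) :
    zz Q a b ≫ (CC X).d 2 1 = sq Q ![(0, a), (1, a)] - sq Q ![(0, b), (1, b)] := by
  simp only [zz, Preadditive.add_comp, Preadditive.sub_comp, sq_d2]
  rw [h.sq_one ![(1, a), (1, b)] ![(1, 0), (1, 0)] (by simp [Fin.forall_fin_two])
    (by simp [Fin.forall_fin_two]), h.sq_zero ![(0, a), (0, b)] ![(0, 0), (0, 0)]
    (by simp [Fin.forall_fin_two]) (by simp [Fin.forall_fin_two])]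
  abel

lemma Susp.zz_cycle {Q : C(ℝ × ℝ, X)} (h : Susp Q) : zz Q 0 1 ≫ (CC X).d 2 1 = 0 := by
  rw [h.zz_d, h.sq_per ![(0, 0), (1, 0)] ![(0, 1), (1, 1)] (by simp [Fin.forall_fin_two])
    (by simp [Fin.forall_fin_two]), sub_self]

lemma Susp.zz_two {Q : C(ℝ × ℝ, X)} (h : Susp Q) :
    ∃ c : RR ⟶ (CC X).X 3, zz Q 0 2 - (zz Q 0 1 + zz Q 0 1) = c ≫ (CC X).d 3 2 := by
  refine ⟨sq Q ![(0, 0), (1, 0), (1, 1), (1, 2)] - sq Q ![(0, 0), (0, 1), (1, 1), (1, 2)] +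
    sq Q ![(0, 0), (0, 1), (0, 2), (1, 2)], ?_⟩
  simp only [zz, Preadditive.add_comp, Preadditive.sub_comp, sq_d3]
  rw [h.sq_one ![(1, 0), (1, 1), (1, 2)] ![(1, 0), (1, 0), (1, 0)] (by simp [Fin.forall_fin_succ])
    (by simp [Fin.forall_fin_succ]), h.sq_zero ![(0, 0), (0, 1), (0, 2)] ![(0, 0), (0, 0), (0, 0)]
    (by simp [Fin.forall_fin_succ]) (by simp [Fin.forall_fin_succ]),
    h.sq_per ![(0, 0), (1, 0), (1, 1)] ![(0, 1), (1, 1), (1, 2)] (by simp [Fin.forall_fin_succ])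
    (by simp [Fin.forall_fin_succ]; norm_num),
    h.sq_per ![(0, 0), (0, 1), (1, 1)] ![(0, 1), (0, 2), (1, 2)] (by simp [Fin.forall_fin_succ])
    (by simp [Fin.forall_fin_succ]; norm_num)]
  abel

/-- the homology class. -/
def Susp.cls {Q : C(ℝ × ℝ, X)} (h : Susp Q) : RR ⟶ (CC X).homology 2 :=
  (CC X).liftCycles (zz Q 0 1) 1 (by simp) h.zz_cycle ≫ (CC X).homologyπ 2

lemma zz_map (Q : C(ℝ × ℝ, X)) (a b : ℝ) (f : X ⟶ Y) :
    zz Q a b ≫ (SSet.chainComplexMap (TopCat.toSSet.map f) RR).f 2 = zz (f.hom.comp Q) a b := by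
  simp only [zz, Preadditive.add_comp, Preadditive.sub_comp, sq, sx_map, ContinuousMap.comp_assoc]

lemma Susp.cls_map {Q : C(ℝ × ℝ, X)} (h : Susp Q) (f : X ⟶ Y) (h' : Susp (f.hom.comp Q)) :
    h.cls ≫ Hm f = h'.cls := by
  rw [Susp.cls, Susp.cls, Category.assoc, HomologicalComplex.homologyπ_naturality,
    HomologicalComplex.liftCycles_comp_cyclesMap_assoc]
  simp only [zz_map]

lemma Susp.cls_double {Q Q' : C(ℝ × ℝ, X)} (h : Susp Q) (h' : Susp Q')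
    (hd : ∀ s θ, Q' (s, θ) = Q (s, 2 * θ)) : h'.cls = h.cls + h.cls := by
  have e : zz Q' 0 1 = zz Q 0 2 := by
    have k : ∀ (a b : Fin 3 → ℝ × ℝ), (∀ i, (b i).1 = (a i).1) → (∀ i, (b i).2 = 2 * (a i).2) →
        sq Q' a = sq Q b := by
      intro a b h1 h2
      refine sq_congr fun x => ?_
      rw [aff_affine a b 2 0 h1 (by simpa using h2), add_zero, ← hd]
    unfold zz
    rw [k _ ![(0, 0), (1, 0), (1, 2)], k _ ![(0, 0), (0, 2), (1, 2)],
      k _ ![(1, 0), (1, 0), (1, 0)], k _ ![(0, 0), (0, 0), (0, 0)]] <;>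
    simp [Fin.forall_fin_succ]
  obtain ⟨c, hc⟩ := h.zz_two
  have key := (CC X).liftCycles_homologyπ_eq_zero_of_boundary _ 1 (by simp) c hc
  rw [← sub_eq_zero, Susp.cls, Susp.cls]
  refine Eq.trans ?_ key
  rw [← Preadditive.add_comp, ← Preadditive.sub_comp]
  congr 1
  rw [← cancel_mono ((CC X).iCycles 2)]
  simp only [Preadditive.add_comp, Preadditive.sub_comp, HomologicalComplex.liftCycles_i, e]

/-- the cochain attached to a map to the sphere. -/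
def coch (π : C(X, ℂ × ℝ)) : (CC X).X 2 ⟶ RR :=
  ((TopCat.toSSet.obj X).isColimitChainComplexXCofan RR 2).desc
    (Limits.Cofan.mk RR fun x => (phi (π.comp (X.toSSetObjEquiv (op ⦋2⦌) x))).im • 𝟙 RR)

lemma sx_coch (π : C(X, ℂ × ℝ)) (σ : C(Dl 2, X)) :
    sx σ ≫ coch π = (phi (π.comp σ)).im • 𝟙 RR := by
  have := ((TopCat.toSSet.obj X).isColimitChainComplexXCofan RR 2).fac
    (Limits.Cofan.mk RR fun x => (phi (π.comp (X.toSSetObjEquiv (op ⦋2⦌) x))).im • 𝟙 RR)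
    ⟨(X.toSSetObjEquiv (op ⦋2⦌)).symm σ⟩
  exact this

lemma d_coch (π : C(X, ℂ × ℝ)) (hπ : ∀ x, OnS (π x)) : (CC X).d 3 2 ≫ coch π = 0 := by
  apply SSet.chainComplex_hom_ext
  intro x
  obtain ⟨σ, rfl⟩ := (X.toSSetObjEquiv (op ⦋3⦌)).symm.surjective x
  change sx σ ≫ _ = _
  rw [← Category.assoc, sx_d, Preadditive.sum_comp, Limits.comp_zero]
  simp only [Preadditive.zsmul_comp, sx_coch]
  have key := congrArg Complex.im (phi_cocycle (π.comp σ) (π.comp σ).continuous fun x => hπ _)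
  have e : ∀ (i : Fin 4) (r : ℝ), ((-1 : ℤ) ^ i.val • r • 𝟙 RR : RR ⟶ RR) =
      ((-1 : ℝ) ^ i.val * r) • 𝟙 RR := by
    intro i r
    rw [← Int.cast_smul_eq_zsmul ℝ, smul_smul]
    push_cast
    rfl
  simp only [e, ← Finset.sum_smul]
  convert zero_smul ℝ (𝟙 RR)
  rw [Complex.zero_im, Complex.im_sum] at key
  rw [← key]
  refine Finset.sum_congr rfl fun i _ => ?_
  have : ((-1 : ℂ) ^ i.val) = (((-1 : ℝ) ^ i.val : ℝ) : ℂ) := by push_cast; rfl
  rw [this, Complex.im_ofReal_mul]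
  rfl

/-- the standard global section over the plane. -/
def gs (z : ℝ × ℝ) : ℂ × ℂ := ((|1 - z.1| : ℝ), (|z.1| : ℝ) * cexp (2 * Real.pi * z.2 * I))

lemma continuous_gs : Continuous gs := by unfold gs; fun_prop

lemma Susp.cls_ne {Q : C(ℝ × ℝ, X)} (h : Susp Q) (π : C(X, ℂ × ℝ)) (hπ : ∀ x, OnS (π x))
    (hs : ∀ z, InL (π (Q z)) (gs z)) : h.cls ≠ 0 := by
  intro h0
  have key : h.cls ≫ (CC X).homologyι 2 ≫ (CC X).descOpcycles (coch π) 3 (by simp)
      (d_coch π hπ) = zz Q 0 1 ≫ coch π := by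
    rw [Susp.cls, Category.assoc, HomologicalComplex.homology_π_ι_assoc, HomologicalComplex.p_descOpcycles,
      HomologicalComplex.liftCycles_i_assoc]
  rw [h0, Limits.zero_comp] at key
  simp only [zz, Preadditive.add_comp, Preadditive.sub_comp, sq, sx_coch, ← sub_smul,
    ← add_smul] at key
  have hsec : ∀ {n : ℕ} (a : Fin (n + 1) → ℝ × ℝ),
      IsSec (fun x => π (Q (aff a x))) (fun x => gs (aff a x)) :=
    fun a => ⟨continuous_gs.comp (aff a).continuous, fun x => hs _⟩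
  let E : ℝ × ℝ → ℝ × ℝ → ℂ := fun p q =>
    conn (fun x => π (Q (aff ![p, q] x))) (fun x => gs (aff ![p, q] x))
  have hphi : ∀ p q r : ℝ × ℝ, phi (π.comp (Q.comp (aff ![p, q, r]))) = E q r - E p r + E p q := by
    intro p q r
    have : ∀ i j : Fin 3, edge (fun x => π (Q (aff ![p, q, r] x)))
        (fun x => gs (aff ![p, q, r] x)) i j = E (![p, q, r] i) (![p, q, r] j) := by
      intro i j
      have e : ![p, q, r] ∘ ![i, j] = ![![p, q, r] i, ![p, q, r] j] := by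
        funext k; fin_cases k <;> rfl
      simp only [edge, aff_map, e, E]
    have h2 := phi_eq (hsec ![p, q, r])
    rw [this, this, this] at h2
    exact h2
  rw [hphi, hphi, hphi, hphi] at key
  have e1 : E (0, 1) (1, 1) = E (0, 0) (1, 0) := by
    have k := aff_affine ![(0, 0), (1, 0)] ![(0, 1), (1, 1)] 1 1 (by simp [Fin.forall_fin_two])
      (by simp [Fin.forall_fin_two])
    simp only [E, k, one_mul, h.per]
    congr 1
    funext x
    simp only [gs]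
    push_cast
    rw [mul_add, add_mul, Complex.exp_add, mul_one, Complex.exp_two_pi_mul_I, mul_one]
  have e2 : E (0, 0) (0, 1) = E (0, 0) (0, 0) := by
    have k1 := aff_fst ![(0, 0), (0, 1)] 0 (by simp [Fin.forall_fin_two])
    have k2 := aff_fst ![((0 : ℝ), (0 : ℝ)), (0, 0)] 0 (by simp [Fin.forall_fin_two])
    simp only [E]
    congr 1
    · funext x
      rw [← Prod.mk.eta (p := aff ![(0, 0), (0, 1)] x),
        ← Prod.mk.eta (p := aff ![(0, 0), (0, 0)] x), k1, k2, h.zero,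
        h.zero (aff ![(0, 0), (0, 0)] x).2]
    · funext x
      simp only [gs, k1, k2]
      simp
  have e3 : E (1, 0) (1, 1) = E (1, 0) (1, 0) + 2 * Real.pi * I := by
    have k1 := aff_fst ![(1, 0), (1, 1)] 1 (by simp [Fin.forall_fin_two])
    have k2 := aff_fst ![((1 : ℝ), (0 : ℝ)), (1, 0)] 1 (by simp [Fin.forall_fin_two])
    have k3 : ∀ x, (aff ![((1 : ℝ), (0 : ℝ)), (1, 0)] x).2 = 0 := by
      intro x; simp [aff, Fin.sum_univ_two]
    have k4 : ∀ x : Dl 1, (aff ![((1 : ℝ), (0 : ℝ)), (1, 1)] x).2 = x.1 1 := by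
      intro x; simp [aff, Fin.sum_univ_two]
    have k5 : (fun x => π (Q (aff ![(1, 0), (1, 1)] x))) =
        fun x => π (Q (aff ![(1, 0), (1, 0)] x)) := by
      funext x
      rw [← Prod.mk.eta (p := aff ![(1, 0), (1, 1)] x),
        ← Prod.mk.eta (p := aff ![(1, 0), (1, 0)] x), k1, k2, h.one,
        h.one (aff ![(1, 0), (1, 0)] x).2]
    simp only [E]
    rw [k5, conn_smul (hsec ![(1, 0), (1, 0)]) (L := fun x => 2 * Real.pi * (x.1 1 : ℝ) * I)
      (by fun_prop)]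
    · simp
    · intro x
      simp only [gs, k1, k2, k3, k4]
      simp
  rw [e1, e2, e3] at key
  have k2 := congrArg (fun φ : RR ⟶ RR => φ.hom 1) key
  simp at k2
  linarith [Real.pi_pos]

lemma Susp.comp {Q : C(ℝ × ℝ, X)} (h : Susp Q) (f : C(X, Y)) : Susp (f.comp Q) :=
  ⟨fun θ => congrArg f (h.zero θ), fun θ => congrArg f (h.one θ),
    fun s θ => congrArg f (h.per s θ)⟩

theorem hasEigenvalue_two {S M : Type} [TopologicalSpace S] [TopologicalSpace M]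
    (P : C(ℝ × ℝ, S)) (hP : Susp (X := TopCat.of S) P) (ι J : C(S, M))
    (H : ContinuousMap.Homotopy J ι) (f : C(M, M))
    (hf : ∀ s θ, f (ι (P (s, θ))) = J (P (s, 2 * θ)))
    (π : C(M, ℂ × ℝ)) (hπ : ∀ x, OnS (π x)) (hs : ∀ z, InL (π (ι (P z))) (gs z)) :
    Module.End.HasEigenvalue (HF.map (TopCat.ofHom f)).hom (2 : ℝ) := by
  have hι : Susp (X := TopCat.of M) (ι.comp P) := hP.comp (Y := TopCat.of M) ι
  have hJ : Susp (X := TopCat.of M) (J.comp P) := hP.comp (Y := TopCat.of M) J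
  have hfι : Susp (X := TopCat.of M) (f.comp (ι.comp P)) := hι.comp (Y := TopCat.of M) f
  have e1 : hι.cls ≫ Hm (TopCat.ofHom f) = hfι.cls := hι.cls_map (TopCat.ofHom f) hfι
  have e2 : hfι.cls = hJ.cls + hJ.cls := hJ.cls_double hfι hf
  have e3 : hJ.cls = hι.cls := by
    rw [← hP.cls_map (TopCat.ofHom J) hJ, ← hP.cls_map (TopCat.ofHom ι) hι]
    congr 1
    exact TopCat.Homotopy.congr_homologyMap_singularChainComplexFunctor
      (f := TopCat.ofHom J) (g := TopCat.ofHom ι) H RR 2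
  have e4 : hι.cls ≠ 0 := hι.cls_ne π hπ hs
  rw [e2, e3] at e1
  change Module.End.HasEigenvalue (Hm (TopCat.ofHom f)).hom (2 : ℝ)
  refine Module.End.hasEigenvalue_of_hasEigenvector (x := hι.cls.hom 1) ⟨?_, ?_⟩
  · rw [Module.End.mem_eigenspace_iff, two_smul]
    exact congrArg (fun φ : RR ⟶ _ => φ.hom 1) e1
  · intro h0
    apply e4
    ext
    exact h0

end Crest.Agent.R123
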