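import Crest.Agent.R123.Zero
import Crest.Agent.R123.Homology

/-! The map has eigenvalue `2` on second homology. -/

set_option autoImplicit false
open Complex ComplexConjugate Filter Topology

noncomputable section
namespace Crest.Agent.R123

def ee (θ : ℝ) : ℂ := cexp (2 * Real.pi * θ * I)

lemma norm_ee (θ : ℝ) : ‖ee θ‖ = 1 := by
  have := Complex.norm_exp_ofReal_mul_I (2 * Real.pi * θ)
  push_cast at this
  exact this

lemma ee_two (θ : ℝ) : ee (2 * θ) = ee θ ^ 2 := by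
  rw [ee, ee, pow_two, ← Complex.exp_add]; push_cast; congr 1; ring

lemma ee_one (θ : ℝ) : ee (θ + 1) = ee θ := by
  rw [ee, ee]
  push_cast
  rw [mul_add, add_mul, Complex.exp_add, mul_one, Complex.exp_two_pi_mul_I, mul_one]

lemma Pm_eq (s θ : ℝ) : normSq ((2 * (|s| * |1 - s|) : ℝ) * ee θ) + (1 - 2 * s) ^ 2 =
    (s ^ 2 + (1 - s) ^ 2) ^ 2 := by
  rw [normSq_polar _ (norm_ee θ), mul_pow, mul_pow, sq_abs, sq_abs]; ring

lemma Pm_den (s : ℝ) : 0 < s ^ 2 + (1 - s) ^ 2 := by nlinarith [sq_nonneg (2 * s - 1)]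

lemma Pm_pos (s θ : ℝ) : 0 < normSq ((2 * (|s| * |1 - s|) : ℝ) * ee θ) + (1 - 2 * s) ^ 2 := by
  rw [Pm_eq]; exact pow_pos (Pm_den s) 2

def Pm : C(ℝ × ℝ, S2) :=
  ⟨fun z => nrm ((2 * (|z.1| * |1 - z.1|) : ℝ) * ee z.2) (1 - 2 * z.1) (Pm_pos _ _),
    continuous_nrm (by unfold ee; fun_prop) (by fun_prop) _⟩

lemma zc_Pm (s θ : ℝ) :
    zc (Pm (s, θ)) = ((s ^ 2 + (1 - s) ^ 2)⁻¹ * (2 * (|s| * |1 - s|)) : ℝ) * ee θ := by
  change zc (nrm _ _ (Pm_pos s θ)) = _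
  rw [zc_nrm, Pm_eq, Real.sqrt_sq (Pm_den s).le]
  push_cast; ring

lemma tc_Pm (s θ : ℝ) : tc (Pm (s, θ)) = (s ^ 2 + (1 - s) ^ 2)⁻¹ * (1 - 2 * s) := by
  change tc (nrm _ _ (Pm_pos s θ)) = _
  rw [tc_nrm, Pm_eq, Real.sqrt_sq (Pm_den s).le]

lemma susp_Pm : Susp (X := TopCat.of S2) Pm := by
  refine ⟨fun θ => S2_ext ?_ ?_, fun θ => S2_ext ?_ ?_, fun s θ => S2_ext ?_ ?_⟩
  all_goals simp only [zc_Pm, tc_Pm, ee_one]
  all_goals simp

def tI : S1 := ⟨I, by simp⟩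

def io : C(S2, MM) := ⟨fun p => (tI, p, pN, pN), by fun_prop⟩

lemma Hm_pos (t : unitInterval) (p : S2) : 0 < normSq (((1 - t) * ‖zc p‖ + t : ℝ) * zc p) +
    ((1 - t) * (2 * tc p - 1) + t * tc p) ^ 2 := by
  have h0 := t.2.1
  have h1 := t.2.2
  by_cases h : zc p = 0
  · have h2 := onS p
    rw [h, map_zero, zero_add] at h2
    have h3 : (tc p - 1) * (tc p + 1) = 0 := by linarith
    refine add_pos_of_nonneg_of_pos (normSq_nonneg _) (sq_pos_of_ne_zero ?_)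
    rcases mul_eq_zero.1 h3 with h4 | h4
    · rw [show tc p = 1 by linarith]; linarith
    · rw [show tc p = -1 by linarith]; linarith
  · refine add_pos_of_pos_of_nonneg (normSq_pos.2 (mul_ne_zero ?_ h)) (sq_nonneg _)
    have h2 := norm_pos_iff.2 h
    have : (0 : ℝ) < (1 - t) * ‖zc p‖ + t := by
      rcases h0.eq_or_lt with h3 | h3
      · rw [← h3]; simpa using h
      · nlinarith [mul_nonneg (sub_nonneg.2 h1) h2.le]
    exact_mod_cast this.ne'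

def Hmap : C(unitInterval × S2, MM) :=
  ⟨fun z => (⟨I * cexp ((Real.pi / 2 * (1 - z.1) : ℝ) * I), rot_mem (by simp) _⟩,
    nrm _ _ (Hm_pos z.1 z.2), pN, pN), by
      refine Continuous.prodMk (Continuous.subtype_mk (by fun_prop) _) (Continuous.prodMk
        (continuous_nrm (by fun_prop) (by fun_prop) _) continuous_const)⟩

def Jm : C(S2, MM) := Hmap.comp ⟨fun p => (0, p), by fun_prop⟩

def Hto : ContinuousMap.Homotopy Jm io where
  toContinuousMap := Hmap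
  map_zero_left _ := rfl
  map_one_left p := by
    refine Prod.ext (Subtype.ext ?_) (Prod.ext (S2_ext ?_ ?_) rfl)
    · simp [Hmap, io, tI]
    · change zc (nrm _ _ (Hm_pos 1 p)) = zc p
      rw [zc_nrm]
      simp [onS p]
    · change tc (nrm _ _ (Hm_pos 1 p)) = tc p
      rw [tc_nrm]
      simp [onS p]

lemma nrm_congr {z z' : ℂ} {t t' : ℝ} (h : 0 < normSq z + t ^ 2) (h' : 0 < normSq z' + t' ^ 2)
    (hz : z = z') (ht : t = t') : nrm z t h = nrm z' t' h' := by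
  subst hz ht; rfl

lemma ff_io (s θ : ℝ) : ff (io (Pm (s, θ))) = Jm (Pm (s, 2 * θ)) := by
  have ht : tau (io (Pm (s, θ))) = I := rfl
  have ky : ∀ v e : ℂ, yy (tau (io (Pm (s, θ)))) (eta (io (Pm (s, θ)))) v e = 0 := by
    intro v e
    rw [yy, ht, sg_zero (a := 0) (t := I.re - I.im) (by norm_num) (by simp),
      sg_zero (a := -1) (by norm_num) (by simp)]
    simp
  refine Prod.ext (Subtype.ext ?_) (Prod.ext ?_ (Prod.ext ?_ ?_))
  · change tau (ff _) = I * cexp ((Real.pi / 2 * (1 - ((0 : unitInterval) : ℝ)) : ℝ) * I)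
    rw [tau_ff, hx, hh, ht, h0_eq_one (by simp)]
    simp
  · refine nrm_congr (nx_pos _) (Hm_pos 0 (Pm (s, 2 * θ))) ?_ ?_
    · rw [nx, num, ht, sg_zero (a := -1 / 2) (by norm_num) (by norm_num)]
      change zc (Pm (s, θ)) ^ 2 + _ = _
      have h0 : 0 ≤ (s ^ 2 + (1 - s) ^ 2)⁻¹ * (2 * (|s| * |1 - s|)) := by positivity
      rw [zc_Pm, zc_Pm, norm_mul, norm_ee, Complex.norm_real, Real.norm_of_nonneg h0, ee_two]
      generalize (s ^ 2 + (1 - s) ^ 2)⁻¹ * (2 * (|s| * |1 - s|)) = d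
      simp
      ring
    · change 2 * tc (Pm (s, θ)) - 1 = _
      rw [tc_Pm, tc_Pm]
      simp
  · exact nrm_congr (one_pos' _) (one_pos' _) (ky _ _) rfl
  · exact nrm_congr (one_pos' _) (one_pos' _) (ky _ _) rfl

lemma inL_Pm (z : ℝ × ℝ) : InL (zc (Pm z), tc (Pm z)) (gs z) := by
  obtain ⟨s, θ⟩ := z
  have hd : ((s : ℂ) ^ 2 + (1 - s) ^ 2) ≠ 0 := by exact_mod_cast (Pm_den s).ne'
  have h1 : conj (ee θ) * ee θ = 1 := by
    rw [← normSq_eq_conj_mul_self, normSq_eq_norm_sq, norm_ee]; simp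
  have h2 : ((|s| : ℝ) : ℂ) ^ 2 = s ^ 2 := by exact_mod_cast sq_abs s
  have h3 : ((|1 - s| : ℝ) : ℂ) ^ 2 = (1 - s) ^ 2 := by exact_mod_cast sq_abs (1 - s)
  have e : gs (s, θ) = (((|1 - s| : ℝ) : ℂ), (|s| : ℝ) * ee θ) := rfl
  rw [e, zc_Pm, tc_Pm]
  refine ⟨fun h => ?_, ?_, ?_⟩
  · have a1 : ((|1 - s| : ℝ) : ℂ) = 0 := congrArg Prod.fst h
    have a2 : ((|s| : ℝ) : ℂ) * ee θ = 0 := congrArg Prod.snd h
    have a3 : ee θ ≠ 0 := exp_ne_zero _
    apply hd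
    rw [← h2, ← h3, a1, (mul_eq_zero.1 a2).resolve_right a3]
    simp
  · simp only [map_mul, conj_ofReal]
    push_cast
    generalize ((|s| : ℝ) : ℂ) = a at *
    generalize ((|1 - s| : ℝ) : ℂ) = b at *
    field_simp
    linear_combination (-2 * b * a ^ 2) * h1 - 2 * b * h2
  · push_cast
    generalize ((|s| : ℝ) : ℂ) = a at *
    generalize ((|1 - s| : ℝ) : ℂ) = b at *
    field_simp
    linear_combination (2 * a * ee θ) * h3

theorem eigen_ff : Module.End.HasEigenvalue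
    (HF.map (TopCat.ofHom (⟨ff, contMDiff_ff.continuous⟩ : C(MM, MM)))).hom (2 : ℝ) :=
  hasEigenvalue_two Pm susp_Pm io Jm Hto _ ff_io
    ⟨fun x => (zc x.2.1, tc x.2.1), by fun_prop⟩ (fun x => onS x.2.1) inL_Pm

end Crest.Agent.R123
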