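import Mathlib

/-! A real `2`-cocycle on singular simplices of a space mapping to the `2`-sphere
(the first Chern class of the tautological line bundle, built from sections and logarithms). -/

set_option autoImplicit false
open Complex ComplexConjugate

noncomputable section
namespace Crest.Agent.R123

abbrev Dl (n : ℕ) : Type := stdSimplex ℝ (Fin (n + 1))

instance (n : ℕ) : ContractibleSpace (Dl n) :=
  (convex_stdSimplex ℝ (Fin (n + 1))).contractibleSpace ⟨_, single_mem_stdSimplex ℝ 0⟩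

instance (n : ℕ) : LocallyPathConnectedSpace (Dl n) :=
  (convex_stdSimplex ℝ (Fin (n + 1))).locallyPathConnectedSpace

lemma exists_log {n : ℕ} (u : Dl n → ℂ) (hu : Continuous u) (h0 : ∀ x, u x ≠ 0) :
    ∃ L : Dl n → ℂ, Continuous L ∧ ∀ x, cexp (L x) = u x := by
  obtain ⟨F, ⟨-, hF⟩, -⟩ := Complex.isCoveringMapOn_exp.existsUnique_continuousMap_lifts
    (⟨u, hu⟩ : C(Dl n, ℂ)) (a₀ := stdSimplex.vertex 0) (Complex.exp_log (h0 _)) h0
  exact ⟨F, F.continuous, fun x => congrFun hF x⟩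

open Classical in
/-- total variation of a logarithm along a singular `1`-simplex in `ℂ \ 0`. -/
def wind (u : Dl 1 → ℂ) : ℂ :=
  if h : ∃ L : Dl 1 → ℂ, Continuous L ∧ ∀ x, cexp (L x) = u x then
    h.choose (stdSimplex.vertex 1) - h.choose (stdSimplex.vertex 0) else 0

lemma wind_eq {u L : Dl 1 → ℂ} (hL : Continuous L) (h : ∀ x, cexp (L x) = u x) :
    wind u = L (stdSimplex.vertex 1) - L (stdSimplex.vertex 0) := by
  have hex : ∃ L : Dl 1 → ℂ, Continuous L ∧ ∀ x, cexp (L x) = u x := ⟨L, hL, h⟩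
  rw [wind, dif_pos hex]
  obtain ⟨h1, h2⟩ := hex.choose_spec
  have key := Complex.isCoveringMap_exp.const_of_comp (g := fun x => hex.choose x - L x)
    (h1.sub hL) (by
      intro a b
      apply Subtype.ext
      simp only [Complex.exp_sub, h2, h]
      rw [div_self, div_self]
      · rw [← h]; exact exp_ne_zero _
      · rw [← h]; exact exp_ne_zero _) (stdSimplex.vertex 1) (stdSimplex.vertex 0)
  linear_combination key

/-- `v` is a non-zero vector on the tautological line over the point `p` of the sphere. -/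
def InL (p : ℂ × ℝ) (v : ℂ × ℂ) : Prop :=
  v ≠ 0 ∧ (1 - p.2) * v.1 = conj p.1 * v.2 ∧ p.1 * v.1 = (1 + p.2) * v.2

def rat (v w : ℂ × ℂ) : ℂ := (conj v.1 * w.1 + conj v.2 * w.2) / (conj v.1 * v.1 + conj v.2 * v.2)

lemma den_ne {v : ℂ × ℂ} (h : v ≠ 0) : conj v.1 * v.1 + conj v.2 * v.2 ≠ 0 := by
  intro h0
  rw [← normSq_eq_conj_mul_self, ← normSq_eq_conj_mul_self] at h0
  have h1 : normSq v.1 + normSq v.2 = 0 := by exact_mod_cast h0
  have h2 := normSq_nonneg v.1
  have h3 := normSq_nonneg v.2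
  apply h
  ext
  · exact normSq_eq_zero.1 (by linarith)
  · exact normSq_eq_zero.1 (by linarith)

lemma InL.rat_smul {p : ℂ × ℝ} {v w : ℂ × ℂ} (hv : InL p v) (hw : InL p w) : rat v w • v = w := by
  have hd := den_ne hv.1
  obtain ⟨-, a1, a2⟩ := hv
  obtain ⟨-, b1, b2⟩ := hw
  have det : v.1 * w.2 = w.1 * v.2 := by
    linear_combination (1 / 2 : ℂ) * (w.2 * a1 - v.2 * b1 + w.1 * a2 - v.1 * b2)
  ext
  · simp only [Prod.smul_fst, smul_eq_mul, rat]
    field_simp
    linear_combination (conj v.2) * det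
  · simp only [Prod.smul_snd, smul_eq_mul, rat]
    field_simp
    linear_combination (-conj v.1) * det

lemma InL.rat_ne {p : ℂ × ℝ} {v w : ℂ × ℂ} (hv : InL p v) (hw : InL p w) : rat v w ≠ 0 := by
  intro h
  have := hv.rat_smul hw
  rw [h, zero_smul] at this
  exact hw.1 this.symm

lemma rat_smul_right (v w : ℂ × ℂ) (c : ℂ) : rat v (c • w) = c * rat v w := by
  simp only [rat, Prod.smul_fst, Prod.smul_snd, smul_eq_mul]
  ring

lemma continuous_rat {T : Type*} [TopologicalSpace T] {v w : T → ℂ × ℂ} (hv : Continuous v)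
    (hw : Continuous w) (h : ∀ x, v x ≠ 0) : Continuous fun x => rat (v x) (w x) := by
  unfold rat
  refine Continuous.div (by fun_prop) (by fun_prop) fun x => den_ne (h x)

/-- a continuous nowhere vanishing section over `σ`. -/
def IsSec {T : Type*} [TopologicalSpace T] (σ : T → ℂ × ℝ) (v : T → ℂ × ℂ) : Prop :=
  Continuous v ∧ ∀ x, InL (σ x) (v x)

def OnS (p : ℂ × ℝ) : Prop := normSq p.1 + p.2 ^ 2 = 1

lemma InL.step {p q : ℂ × ℝ} {v : ℂ × ℂ} (hq : OnS q) (hv : InL p v) (hd : dist p q < 1) :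
    InL q ((1 + q.2) * v.1 + conj q.1 * v.2, q.1 * v.1 + (1 - q.2) * v.2) := by
  obtain ⟨h0, a1, a2⟩ := hv
  have hq' : conj q.1 * q.1 + (q.2 : ℂ) ^ 2 = 1 := by
    rw [← normSq_eq_conj_mul_self]; exact_mod_cast hq
  refine ⟨?_, ?_, ?_⟩
  · intro h
    have e1 : (1 + q.2) * v.1 + conj q.1 * v.2 = 0 := congrArg Prod.fst h
    have e2 : q.1 * v.1 + (1 - q.2) * v.2 = 0 := congrArg Prod.snd h
    rw [Prod.dist_eq, max_lt_iff, dist_comm p.1, dist_comm p.2, dist_eq_norm, Real.dist_eq] at hd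
    have hn : normSq (q.1 - p.1) < 1 := by
      rw [normSq_eq_norm_sq]; nlinarith [norm_nonneg (q.1 - p.1), hd.1]
    have hm : (q.2 - p.2) ^ 2 < 1 := by
      rw [← sq_abs]; nlinarith [abs_nonneg (q.2 - p.2), hd.2]
    have hD : (4 - ((q.2 : ℂ) - p.2) ^ 2 - conj (q.1 - p.1) * (q.1 - p.1)) ≠ 0 := by
      rw [← normSq_eq_conj_mul_self]
      have : (4 - (q.2 - p.2) ^ 2 - normSq (q.1 - p.1) : ℝ) ≠ 0 := by linarith
      exact_mod_cast this
    rw [map_sub] at hD
    apply h0
    ext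
    · apply mul_left_cancel₀ hD
      simp only [Prod.fst_zero]
      linear_combination (2 - ((q.2 : ℂ) - p.2)) * (e1 + a1) - (conj q.1 - conj p.1) * (e2 - a2)
    · apply mul_left_cancel₀ hD
      simp only [Prod.snd_zero]
      linear_combination (2 + ((q.2 : ℂ) - p.2)) * (e2 - a2) - (q.1 - p.1) * (e1 + a1)
  · simp only
    linear_combination (-v.1) * hq'
  · simp only
    linear_combination v.2 * hq'

lemma exists_InL {p : ℂ × ℝ} (hp : OnS p) : ∃ v, InL p v := by
  have hp' : conj p.1 * p.1 + (p.2 : ℂ) ^ 2 = 1 := by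
    rw [← normSq_eq_conj_mul_self]; exact_mod_cast hp
  by_cases h : p.2 = -1
  · refine ⟨(0, 1), by simp, ?_, ?_⟩
    · have : normSq p.1 = 0 := by unfold OnS at hp; rw [h] at hp; linarith
      simp [normSq_eq_zero.1 this]
    · simp [h]
  · refine ⟨(1 + p.2, p.1), ?_, ?_, ?_⟩
    · intro h0
      have e1 : (1 + p.2 : ℂ) = 0 := congrArg Prod.fst h0
      have : (1 + p.2 : ℝ) = 0 := by exact_mod_cast e1
      exact h (by linarith)
    · simp only; linear_combination -hp'
    · simp only; ring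

/-- radial contraction of the simplex. -/
def contr {n : ℕ} (x : Dl n) (t : unitInterval) : Dl n :=
  ⟨(1 - (t : ℝ)) • (Pi.single 0 1 : Fin (n + 1) → ℝ) + (t : ℝ) • x.1,
    convex_stdSimplex ℝ _ (single_mem_stdSimplex ℝ 0) x.2 (unitInterval.one_minus_nonneg t)
      t.2.1 (by ring)⟩

lemma continuous_contr {n : ℕ} : Continuous fun z : Dl n × unitInterval => contr z.1 z.2 := by
  unfold contr
  fun_prop

lemma exists_sec {n : ℕ} (σ : Dl n → ℂ × ℝ) (hσ : Continuous σ) (hS : ∀ x, OnS (σ x)) :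
    ∃ v, IsSec σ v := by
  have hc : Continuous fun z : Dl n × unitInterval => σ (contr z.1 z.2) :=
    hσ.comp continuous_contr
  obtain ⟨δ, hδ, hd⟩ := Metric.uniformContinuous_iff.1
    (CompactSpace.uniformContinuous_of_continuous hc) 1 one_pos
  obtain ⟨N, hN⟩ := exists_nat_one_div_lt hδ
  have hN0 : (0 : ℝ) < N + 1 := by positivity
  have key : ∀ k : ℕ, ∃ v, IsSec
      (fun x => σ (contr x (Set.projIcc 0 1 zero_le_one (k / (N + 1 : ℝ))))) v := by
    intro k
    induction k with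
    | zero =>
      obtain ⟨v, hv⟩ := exists_InL (hS (stdSimplex.vertex 0))
      refine ⟨fun _ => v, continuous_const, fun x => ?_⟩
      convert hv using 2
      apply Subtype.ext
      simp [contr]
    | succ k ih =>
      obtain ⟨v, hv1, hv2⟩ := ih
      have hc' : Continuous fun x : Dl n =>
          σ (contr x (Set.projIcc 0 1 zero_le_one ((k + 1 : ℕ) / (N + 1 : ℝ)))) :=
        hc.comp (continuous_id.prodMk continuous_const)
      refine ⟨_, ?_, fun x => InL.step (hS _) (hv2 x) ?_⟩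
      · have h1 := hc'.fst
        have h2 := Complex.continuous_ofReal.comp hc'.snd
        have h3 := Complex.continuous_conj.comp hc'.fst
        exact (((continuous_const.add h2).mul hv1.fst).add (h3.mul hv1.snd)).prodMk
          ((h1.mul hv1.fst).add ((continuous_const.sub h2).mul hv1.snd))
      · apply hd (a := (x, _)) (b := (x, _))
        rw [Prod.dist_eq, dist_self, max_lt_iff]
        refine ⟨hδ, lt_of_le_of_lt ?_ hN⟩
        refine ((LipschitzWith.projIcc (zero_le_one' ℝ)).dist_le_mul _ _).trans (le_of_eq ?_)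
        rw [Real.dist_eq, ← sub_div]
        push_cast
        rw [abs_div, abs_of_pos hN0]
        simp
  obtain ⟨v, hv⟩ := key (N + 1)
  refine ⟨v, ?_⟩
  convert hv using 3 with x
  apply Subtype.ext
  push_cast
  rw [div_self hN0.ne']
  simp [contr]

open Classical in
/-- a chosen section. -/
def sec {n : ℕ} (σ : Dl n → ℂ × ℝ) : Dl n → ℂ × ℂ :=
  if h : ∃ v, IsSec σ v then h.choose else 0

lemma sec_spec {n : ℕ} {σ : Dl n → ℂ × ℝ} {v : Dl n → ℂ × ℂ} (h : IsSec σ v) :
    IsSec σ (sec σ) := by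
  have hex : ∃ v, IsSec σ v := ⟨v, h⟩
  rw [sec, dif_pos hex]
  exact hex.choose_spec

/-- the "connection integral" of a section along a singular `1`-simplex. -/
def conn (γ : Dl 1 → ℂ × ℝ) (v : Dl 1 → ℂ × ℂ) : ℂ := wind fun x => rat (sec γ x) (v x)

lemma conn_smul {γ : Dl 1 → ℂ × ℝ} {v w : Dl 1 → ℂ × ℂ} {L : Dl 1 → ℂ} (hv : IsSec γ v)
    (hL : Continuous L) (hw : ∀ x, w x = cexp (L x) • v x) :
    conn γ w = conn γ v + (L (stdSimplex.vertex 1) - L (stdSimplex.vertex 0)) := by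
  have hs := sec_spec hv
  obtain ⟨K, hK, hK'⟩ := exists_log (fun x => rat (sec γ x) (v x))
    (continuous_rat hs.1 hv.1 fun x => (hs.2 x).1) fun x => (hs.2 x).rat_ne (hv.2 x)
  rw [conn, conn, wind_eq hK hK', wind_eq (L := fun x => K x + L x) (hK.add hL)]
  · ring
  · intro x
    rw [hw, rat_smul_right, Complex.exp_add, hK', mul_comm]

lemma IsSec.comp {n m : ℕ} {σ : Dl n → ℂ × ℝ} {v : Dl n → ℂ × ℂ} (h : IsSec σ v)
    (e : Fin (m + 1) → Fin (n + 1)) :
    IsSec (fun x : Dl m => σ (stdSimplex.map e x)) (fun x => v (stdSimplex.map e x)) :=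
  ⟨h.1.comp (stdSimplex.continuous_map e), fun _ => h.2 _⟩

/-- the connection integral along the edge `[i,j]`. -/
def edge {n : ℕ} (σ : Dl n → ℂ × ℝ) (v : Dl n → ℂ × ℂ) (i j : Fin (n + 1)) : ℂ :=
  conn (fun x => σ (stdSimplex.map ![i, j] x)) (fun x => v (stdSimplex.map ![i, j] x))

/-- the cocycle. -/
def phi (σ : Dl 2 → ℂ × ℝ) : ℂ :=
  edge σ (sec σ) 1 2 - edge σ (sec σ) 0 2 + edge σ (sec σ) 0 1

lemma phi_eq {σ : Dl 2 → ℂ × ℝ} {v : Dl 2 → ℂ × ℂ} (hv : IsSec σ v) :
    phi σ = edge σ v 1 2 - edge σ v 0 2 + edge σ v 0 1 := by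
  have hs := sec_spec hv
  obtain ⟨K, hK, hK'⟩ := exists_log (fun x => rat (sec σ x) (v x))
    (continuous_rat hs.1 hv.1 fun x => (hs.2 x).1) fun x => (hs.2 x).rat_ne (hv.2 x)
  have key : ∀ i j, edge σ v i j = edge σ (sec σ) i j +
      (K (stdSimplex.vertex j) - K (stdSimplex.vertex i)) := by
    intro i j
    rw [edge, edge, conn_smul (hs.comp ![i, j]) (L := fun x => K (stdSimplex.map ![i, j] x))
      (hK.comp (stdSimplex.continuous_map _))]
    · simp
    · intro x
      rw [hK', (hs.2 _).rat_smul (hv.2 _)]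
  rw [key, key, key, phi]
  ring

lemma edge_comp {n m : ℕ} (σ : Dl n → ℂ × ℝ) (v : Dl n → ℂ × ℂ) (e : Fin (m + 1) → Fin (n + 1))
    (i j : Fin (m + 1)) :
    edge (fun x : Dl m => σ (stdSimplex.map e x)) (fun x => v (stdSimplex.map e x)) i j =
      edge σ v (e i) (e j) := by
  have : e ∘ ![i, j] = ![e i, e j] := by
    funext k; fin_cases k <;> rfl
  simp only [edge, stdSimplex.map_comp_apply, this]

lemma phi_cocycle (σ : Dl 3 → ℂ × ℝ) (hσ : Continuous σ) (hS : ∀ x, OnS (σ x)) :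
    ∑ i : Fin 4, (-1) ^ i.val * phi (fun x => σ (stdSimplex.map i.succAbove x)) = 0 := by
  obtain ⟨v, hv⟩ := exists_sec σ hσ hS
  have key : ∀ i : Fin 4, phi (fun x => σ (stdSimplex.map i.succAbove x)) =
      edge σ v (i.succAbove 1) (i.succAbove 2) - edge σ v (i.succAbove 0) (i.succAbove 2) +
        edge σ v (i.succAbove 0) (i.succAbove 1) := by
    intro i
    rw [phi_eq (hv.comp i.succAbove), edge_comp, edge_comp, edge_comp]
  simp only [key, Fin.sum_univ_four]
  have e00 : (0 : Fin 4).succAbove (0 : Fin 3) = 1 := by decide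
  have e01 : (0 : Fin 4).succAbove (1 : Fin 3) = 2 := by decide
  have e02 : (0 : Fin 4).succAbove (2 : Fin 3) = 3 := by decide
  have e10 : (1 : Fin 4).succAbove (0 : Fin 3) = 0 := by decide
  have e11 : (1 : Fin 4).succAbove (1 : Fin 3) = 2 := by decide
  have e12 : (1 : Fin 4).succAbove (2 : Fin 3) = 3 := by decide
  have e20 : (2 : Fin 4).succAbove (0 : Fin 3) = 0 := by decide
  have e21 : (2 : Fin 4).succAbove (1 : Fin 3) = 1 := by decide
  have e22 : (2 : Fin 4).succAbove (2 : Fin 3) = 3 := by decide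
  have e30 : (3 : Fin 4).succAbove (0 : Fin 3) = 0 := by decide
  have e31 : (3 : Fin 4).succAbove (1 : Fin 3) = 1 := by decide
  have e32 : (3 : Fin 4).succAbove (2 : Fin 3) = 2 := by decide
  rw [e00, e01, e02, e10, e11, e12, e20, e21, e22, e30, e31, e32]
  have v1 : ((1 : Fin 4) : ℕ) = 1 := rfl
  have v2 : ((2 : Fin 4) : ℕ) = 2 := rfl
  have v3 : ((3 : Fin 4) : ℕ) = 3 := rfl
  rw [v1, v2, v3]
  simp only [Fin.val_zero]
  ring

end Crest.Agent.R123
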