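import Crest.Agent.R123.Series

/-! The manifold `S¹ × S² × S² × S²` and the `C¹` self-map. -/

set_option autoImplicit false
open Complex ComplexConjugate Filter Topology
open scoped Manifold ContDiff

noncomputable section
namespace Crest.Agent.R123

abbrev E3 : Type := WithLp 2 (ℂ × ℝ)
abbrev S2 : Type := Metric.sphere (0 : E3) 1
abbrev S1 : Type := Metric.sphere (0 : ℂ) 1
abbrev MM : Type := S1 × S2 × S2 × S2

instance factC : Fact (Module.finrank ℝ ℂ = 1 + 1) := Complex.finrank_real_complex_fact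
instance factE3 : Fact (Module.finrank ℝ E3 = 2 + 1) :=
  ⟨by rw [(WithLp.linearEquiv 2 ℝ (ℂ × ℝ)).finrank_eq]; simp⟩

abbrev II := (𝓡 1).prod ((𝓡 2).prod ((𝓡 2).prod (𝓡 2)))

def zc (p : S2) : ℂ := p.1.ofLp.1
def tc (p : S2) : ℝ := p.1.ofLp.2

lemma normSq_E3 (p : E3) : ‖p‖ ^ 2 = normSq p.ofLp.1 + p.ofLp.2 ^ 2 := by
  rw [WithLp.prod_norm_sq_eq_of_L2, normSq_eq_norm_sq, Real.norm_eq_abs, sq_abs]
  rfl

lemma onS (p : S2) : normSq (zc p) + tc p ^ 2 = 1 := by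
  rw [zc, tc, ← normSq_E3, mem_sphere_zero_iff_norm.1 p.2]; norm_num

lemma S2_ext {p q : S2} (h1 : zc p = zc q) (h2 : tc p = tc q) : p = q :=
  Subtype.ext (WithLp.ofLp_injective 2 (Prod.ext h1 h2))

lemma dist_S2 (p q : S2) : dist p q ^ 2 = normSq (zc p - zc q) + (tc p - tc q) ^ 2 := by
  rw [Subtype.dist_eq, dist_eq_norm, normSq_E3]
  rfl

@[fun_prop] lemma continuous_zc : Continuous zc := by unfold zc; fun_prop
@[fun_prop] lemma continuous_tc : Continuous tc := by unfold tc; fun_prop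

def nrmv (z : ℂ) (t : ℝ) : E3 :=
  WithLp.toLp 2 (((√(normSq z + t ^ 2))⁻¹ : ℝ) * z, (√(normSq z + t ^ 2))⁻¹ * t)

lemma nrmv_mem {z : ℂ} {t : ℝ} (h : 0 < normSq z + t ^ 2) :
    nrmv z t ∈ Metric.sphere (0 : E3) 1 := by
  rw [mem_sphere_zero_iff_norm, ← sq_eq_sq₀ (norm_nonneg _) zero_le_one, normSq_E3]
  simp only [nrmv, map_mul, normSq_ofReal]
  have h1 := Real.sq_sqrt h.le
  have h2 := Real.sqrt_pos.2 h
  field_simp
  linarith

/-- radial projection to the sphere. -/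
def nrm (z : ℂ) (t : ℝ) (h : 0 < normSq z + t ^ 2) : S2 := ⟨nrmv z t, nrmv_mem h⟩

lemma zc_nrm (z : ℂ) (t : ℝ) (h : 0 < normSq z + t ^ 2) :
    zc (nrm z t h) = ((√(normSq z + t ^ 2))⁻¹ : ℝ) * z := rfl
lemma tc_nrm (z : ℂ) (t : ℝ) (h : 0 < normSq z + t ^ 2) :
    tc (nrm z t h) = (√(normSq z + t ^ 2))⁻¹ * t := rfl

lemma contDiffAt_nrmv {E : Type*} [NormedAddCommGroup E] [NormedSpace ℝ E] {z : E → ℂ}
    {t : E → ℝ} {x : E} (hz : ContDiffAt ℝ 1 z x) (ht : ContDiffAt ℝ 1 t x)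
    (h : 0 < normSq (z x) + t x ^ 2) : ContDiffAt ℝ 1 (fun y => nrmv (z y) (t y)) x := by
  have h1 : ContDiffAt ℝ 1 (fun y => (√(normSq (z y) + t y ^ 2))⁻¹) x :=
    (ContDiffAt.sqrt (f := fun y => normSq (z y) + t y ^ 2) (by fun_prop) h.ne').inv
      (Real.sqrt_pos.2 h).ne'
  exact (WithLp.prodContinuousLinearEquiv 2 ℝ ℂ ℝ).symm.contDiff.contDiffAt.comp x
    (ContDiffAt.prodMk (by fun_prop) (by fun_prop))

lemma continuous_nrm {E : Type*} [TopologicalSpace E] {z : E → ℂ} {t : E → ℝ}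
    (hz : Continuous z) (ht : Continuous t) (h : ∀ x, 0 < normSq (z x) + t x ^ 2) :
    Continuous fun y => nrm (z y) (t y) (h y) := by
  have h1 : Continuous fun y => (√(normSq (z y) + t y ^ 2))⁻¹ :=
    Continuous.inv₀ (by fun_prop) fun y => (Real.sqrt_pos.2 (h y)).ne'
  refine Continuous.subtype_mk ?_ _
  unfold nrmv
  fun_prop

/-- gnomonic coordinate, cut off near the equator. -/
def cut (t : ℝ) : ℝ := sg (1 / 200) (1 / 100) t / t

lemma contDiff_cut : ContDiff ℝ 1 cut := by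
  rw [contDiff_iff_contDiffAt]
  intro t
  by_cases ht : t = 0
  · refine (contDiffAt_const (c := 0)).congr_of_eventuallyEq ?_
    filter_upwards [gt_mem_nhds (show t < 1 / 200 by rw [ht]; norm_num)] with y hy
    rw [cut, sg_zero (by norm_num) hy.le, zero_div]
  · exact (sg_contDiff _ _).contDiffAt.div contDiffAt_id ht

def ext (q : S2) : ℂ := cut (tc q) * zc q

lemma one_pos' (v : ℂ) : 0 < normSq v + (1 : ℝ) ^ 2 := by linarith [normSq_nonneg v]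

lemma ext_nrm {v : ℂ} (hv : ‖v‖ ≤ 99) : ext (nrm v 1 (one_pos' v)) = v := by
  have h2 := Real.sqrt_pos.2 (one_pos' v)
  have h3 : √(normSq v + 1 ^ 2) ≤ 100 := by
    rw [Real.sqrt_le_iff, normSq_eq_norm_sq]
    constructor
    · norm_num
    · nlinarith [norm_nonneg v]
  rw [ext, tc_nrm, zc_nrm, cut, sg_one (by norm_num)]
  · have : ((√(normSq v + 1 ^ 2) : ℝ) : ℂ) ≠ 0 := by exact_mod_cast h2.ne'
    generalize √(normSq v + 1 ^ 2) = d at this ⊢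
    push_cast
    field_simp
  · rw [mul_one, one_div]
    exact inv_anti₀ h2 h3

def h0 (τ : ℂ) : ℝ :=
  (1 - sg (-1) 1 (5 * τ.re - τ.im)) + sg (-1) 1 (5 * τ.re - τ.im) * (τ.im ^ 2 / 4)
def ps (η : ℝ) (v w : ℂ) : ℝ :=
  sg (-1 / 3) 0 η * (1 - sg (9 / 10) (19 / 20) η * (1 - sg 10 16 (normSq v + normSq w)))
def hh (τ : ℂ) (η : ℝ) (v w : ℂ) : ℝ := h0 τ + (1 - h0 τ) * ps η v w
def num (τ ξ : ℂ) (η : ℝ) (v w : ℂ) : ℂ :=
  ξ ^ 2 + (sg (3 / 5) (2 / 3) η * sg (-1 / 2) 0 (τ.re - τ.im) : ℝ) * dec v w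
def ss (τ ξ : ℂ) (η : ℝ) : ℝ :=
  20 * ((1 - sg (-1) (-1 / 2) (τ.re - τ.im)) * (normSq ξ / (normSq ξ ^ 2 + (2 * η - 1) ^ 2)) +
    2 * sg (-1) (-1 / 2) (τ.re - τ.im))
def enc (τ ξ : ℂ) (η : ℝ) : ℂ × ℂ := Psi (ss τ ξ η * normSq ξ) (ph ξ)
def yy (τ : ℂ) (η : ℝ) (v e : ℂ) : ℂ :=
  (sg 0 (1 / 2) η : ℝ) * ((sg 0 (1 / 2) (τ.re - τ.im) : ℝ) * (16 * v) +
    (sg (-1) (-1 / 2) (-τ.re - τ.im) * (1 - sg 0 (1 / 2) (τ.re - τ.im)) : ℝ) * e)

def tau (x : MM) : ℂ := x.1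
def xi (x : MM) : ℂ := zc x.2.1
def eta (x : MM) : ℝ := tc x.2.1
def vv (x : MM) : ℂ := ext x.2.2.1
def ww (x : MM) : ℂ := ext x.2.2.2

lemma norm_tau (x : MM) : ‖tau x‖ = 1 := mem_sphere_zero_iff_norm.1 x.1.2
lemma xi_eta (x : MM) : normSq (xi x) + eta x ^ 2 = 1 := onS _

lemma den_pos {ξ : ℂ} {η : ℝ} (h : normSq ξ + η ^ 2 = 1) : 0 < normSq ξ ^ 2 + (2 * η - 1) ^ 2 := by
  rcases eq_or_ne η (1 / 2) with h1 | h1
  · have : normSq ξ = 3 / 4 := by rw [h1] at h; linarith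
    rw [this, h1]; norm_num
  · have : 0 < (2 * η - 1) ^ 2 := sq_pos_of_ne_zero fun h2 => h1 (by linarith)
    positivity

lemma num_low (τ ξ : ℂ) {η : ℝ} (v w : ℂ) (h : η ≤ 3 / 5) : num τ ξ η v w = ξ ^ 2 := by
  rw [num, sg_zero (by norm_num) h]; simp

lemma num_pos (τ : ℂ) {ξ : ℂ} {η : ℝ} (v w : ℂ) (h : normSq ξ + η ^ 2 = 1) :
    0 < normSq (num τ ξ η v w) + (2 * η - 1) ^ 2 := by
  rcases le_or_gt η (3 / 5) with h1 | h1
  · rw [num_low _ _ _ _ h1, map_pow]; exact den_pos h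
  · have : 0 < (2 * η - 1) ^ 2 := sq_pos_of_ne_zero fun h2 => by linarith
    linarith [normSq_nonneg (num τ ξ η v w)]

lemma rot_mem {τ : ℂ} (h : ‖τ‖ = 1) (a : ℝ) : τ * cexp (a * I) ∈ Metric.sphere (0 : ℂ) 1 := by
  rw [mem_sphere_zero_iff_norm, norm_mul, h, Complex.norm_exp_ofReal_mul_I, one_mul]

def hx (x : MM) : ℝ := hh (tau x) (eta x) (vv x) (ww x)
def nx (x : MM) : ℂ := num (tau x) (xi x) (eta x) (vv x) (ww x)
def vx (x : MM) : ℂ := yy (tau x) (eta x) (vv x) (enc (tau x) (xi x) (eta x)).1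
def wx (x : MM) : ℂ := yy (tau x) (eta x) (ww x) (enc (tau x) (xi x) (eta x)).2

lemma nx_pos (x : MM) : 0 < normSq (nx x) + (2 * eta x - 1) ^ 2 := num_pos _ _ _ (xi_eta x)

/-- the map. -/
def ff (x : MM) : MM :=
  (⟨tau x * cexp ((Real.pi / 2 * hx x : ℝ) * I), rot_mem (norm_tau x) _⟩,
    nrm (nx x) (2 * eta x - 1) (nx_pos x), nrm (vx x) 1 (one_pos' _), nrm (wx x) 1 (one_pos' _))

abbrev VV : Type := ℂ × ℂ × ℝ × ℂ × ℂ

def co (x : MM) : VV := (tau x, xi x, eta x, vv x, ww x)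

lemma contMDiff_zc : ContMDiff (𝓡 2) 𝓘(ℝ, ℂ) 1 zc :=
  (contDiff_fst.comp (WithLp.prodContinuousLinearEquiv 2 ℝ ℂ ℝ).contDiff).comp_contMDiff
    contMDiff_coe_sphere
lemma contMDiff_tc : ContMDiff (𝓡 2) 𝓘(ℝ, ℝ) 1 tc :=
  (contDiff_snd.comp (WithLp.prodContinuousLinearEquiv 2 ℝ ℂ ℝ).contDiff).comp_contMDiff
    contMDiff_coe_sphere
lemma contMDiff_ext : ContMDiff (𝓡 2) 𝓘(ℝ, ℂ) 1 ext := by
  have h : ContDiff ℝ 1 fun z : ℂ × ℝ => (cut z.2 : ℂ) * z.1 :=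
    (Complex.ofRealCLM.contDiff.comp (contDiff_cut.comp contDiff_snd)).mul contDiff_fst
  exact h.comp_contMDiff (contMDiff_zc.prodMk_space contMDiff_tc)

lemma contMDiff_co : ContMDiff II 𝓘(ℝ, VV) 1 co :=
  (contMDiff_coe_sphere.comp contMDiff_fst).prodMk_space <|
    (contMDiff_zc.comp (contMDiff_fst.comp contMDiff_snd)).prodMk_space <|
    (contMDiff_tc.comp (contMDiff_fst.comp contMDiff_snd)).prodMk_space <|
    (contMDiff_ext.comp (contMDiff_fst.comp (contMDiff_snd.comp contMDiff_snd))).prodMk_space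
    (contMDiff_ext.comp (contMDiff_snd.comp (contMDiff_snd.comp contMDiff_snd)))

lemma contMDiff_of_co {F : Type*} [NormedAddCommGroup F] [NormedSpace ℝ F] {g : VV → F}
    (hg : ∀ x : MM, ContDiffAt ℝ 1 g (co x)) : ContMDiff II 𝓘(ℝ, F) 1 fun x => g (co x) :=
  fun x => (hg x).comp_contMDiffAt (contMDiff_co x)

lemma contDiffAt_enc (x : MM) :
    ContDiffAt ℝ 1 (fun z : VV => enc z.1 z.2.1 z.2.2.1) (co x) := by
  have h1 : ContDiffAt ℝ 1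
      (fun z : VV => normSq z.2.1 / (normSq z.2.1 ^ 2 + (2 * z.2.2.1 - 1) ^ 2)) (co x) :=
    ContDiffAt.div (by fun_prop) (by fun_prop) (den_pos (xi_eta x)).ne'
  have h2 : ContDiffAt ℝ 1 (fun z : VV => (ss z.1 z.2.1 z.2.2.1, z.2.1)) (co x) := by
    unfold ss
    fun_prop
  exact ContDiffAt.comp (g := fun z : ℝ × ℂ => Psi (z.1 * normSq z.2) (ph z.2))
    (f := fun z : VV => (ss z.1 z.2.1 z.2.2.1, z.2.1)) (co x) contDiff_Psi.contDiffAt h2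

lemma contMDiff_ff : ContMDiff II II 1 ff := by
  refine ContMDiff.prodMk ?_ (ContMDiff.prodMk ?_ (ContMDiff.prodMk ?_ ?_))
  · refine ContMDiff.codRestrict_sphere (contMDiff_of_co (g := fun z : VV =>
      z.1 * cexp ((Real.pi / 2 * hh z.1 z.2.2.1 z.2.2.2.1 z.2.2.2.2 : ℝ) * I)) fun x => ?_) _
    refine ContDiffAt.mul (by fun_prop) (ContDiffAt.cexp ?_)
    unfold hh h0 ps
    fun_prop
  · refine ContMDiff.codRestrict_sphere (contMDiff_of_co (g := fun z : VV =>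
      nrmv (num z.1 z.2.1 z.2.2.1 z.2.2.2.1 z.2.2.2.2) (2 * z.2.2.1 - 1)) fun x => ?_) _
    refine contDiffAt_nrmv ?_ (by fun_prop) (nx_pos x)
    unfold num dec
    fun_prop
  · refine ContMDiff.codRestrict_sphere (contMDiff_of_co (g := fun z : VV =>
      nrmv (yy z.1 z.2.2.1 z.2.2.2.1 (enc z.1 z.2.1 z.2.2.1).1) 1) fun x => ?_) _
    refine contDiffAt_nrmv ?_ (by fun_prop) (one_pos' _)
    have := (contDiffAt_enc x).fst
    unfold yy
    fun_prop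
  · refine ContMDiff.codRestrict_sphere (contMDiff_of_co (g := fun z : VV =>
      nrmv (yy z.1 z.2.2.1 z.2.2.2.2 (enc z.1 z.2.1 z.2.2.1).2) 1) fun x => ?_) _
    refine contDiffAt_nrmv ?_ (by fun_prop) (one_pos' _)
    have := (contDiffAt_enc x).snd
    unfold yy
    fun_prop

end Crest.Agent.R123
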