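import Mathlib

/-! Changing the model space of a boundaryless manifold along a linear isomorphism. -/

set_option autoImplicit false
open scoped Manifold ContDiff

namespace Crest.Agent.R123

theorem exists_model {E H M F : Type*} [NormedAddCommGroup E] [NormedSpace ℝ E]
    [TopologicalSpace H] (I : ModelWithCorners ℝ E H) [I.Boundaryless] [TopologicalSpace M]
    [ChartedSpace H M] [IsManifold I ∞ M] [NormedAddCommGroup F] [NormedSpace ℝ F]
    (e : E ≃L[ℝ] F) (f : M → M) (hf : ContMDiff I I 1 f) :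
    ∃ _ : ChartedSpace F M, IsManifold 𝓘(ℝ, F) ∞ M ∧ ContMDiff 𝓘(ℝ, F) 𝓘(ℝ, F) 1 f := by
  let φ : H ≃ₜ F := I.toHomeomorph.trans e.toHomeomorph
  let cs : ChartedSpace F M :=
    { atlas := (fun c => c.transHomeomorph φ) '' atlas H M
      chartAt := fun x => (chartAt H x).transHomeomorph φ
      mem_chart_source := fun x => mem_chart_source H x
      chart_mem_atlas := fun x => ⟨_, chart_mem_atlas H x, rfl⟩ }
  refine ⟨cs, ?_, ?_⟩
  · apply isManifold_of_contDiffOn
    rintro _ _ ⟨c, hc, rfl⟩ ⟨c', hc', rfl⟩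
    have h1 := ((contDiffGroupoid ∞ I).compatible hc hc').1
    change ContDiffOn ℝ ∞ _ _ at h1
    have h2 := (e.contDiff.comp_contDiffOn h1).comp (e.symm.contDiff (n := ∞)).contDiffOn
      (s := e.symm ⁻¹' (I.symm ⁻¹' (c.symm ≫ₕ c').source ∩ Set.range I)) (Set.mapsTo_preimage _ _)
    refine (h2.mono ?_).congr ?_
    · rintro x ⟨hx, -⟩
      exact ⟨hx, by simp [I.range_eq_univ]⟩
    · intro x _
      rfl
  · intro x
    have h1 := contMDiffAt_iff.1 (hf x)
    rw [contMDiffAt_iff]
    refine ⟨h1.1, ?_⟩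
    have h2 := h1.2
    rw [I.range_eq_univ, contDiffWithinAt_univ] at h2
    have h3 : ContDiffAt ℝ 1 (e ∘ (extChartAt I (f x) ∘ f ∘ (extChartAt I x).symm) ∘ e.symm)
        (e (extChartAt I x x)) :=
      e.contDiff.contDiffAt.comp _ (ContDiffAt.comp _ (by simpa using h2)
        e.symm.contDiff.contDiffAt)
    exact h3.contDiffWithinAt

end Crest.Agent.R123
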