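import Mathlib

/-! The lacunary series that conjugates the cone map to a linear expansion, and its decoder. -/

set_option autoImplicit false
open Complex ComplexConjugate Filter Topology

noncomputable section
namespace Crest.Agent.R123

/-- smooth step from `0` (left of `a`) to `1` (right of `b`). -/
def sg (a b t : ℝ) : ℝ := Real.smoothTransition ((t - a) / (b - a))

lemma sg_nonneg (a b t : ℝ) : 0 ≤ sg a b t := Real.smoothTransition.nonneg _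
lemma sg_le_one (a b t : ℝ) : sg a b t ≤ 1 := Real.smoothTransition.le_one _
lemma sg_zero {a b t : ℝ} (hab : a < b) (h : t ≤ a) : sg a b t = 0 :=
  Real.smoothTransition.zero_of_nonpos (div_nonpos_of_nonpos_of_nonneg (by linarith) (by linarith))
lemma sg_one {a b t : ℝ} (hab : a < b) (h : b ≤ t) : sg a b t = 1 :=
  Real.smoothTransition.one_of_one_le ((one_le_div (by linarith)).2 (by linarith))
lemma sg_contDiff (a b : ℝ) : ContDiff ℝ 1 (sg a b) :=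
  (Real.smoothTransition.contDiff (n := 1)).comp ((contDiff_id.sub contDiff_const).div_const _)

@[fun_prop]
lemma ContDiffAt.sg {E : Type*} [NormedAddCommGroup E] [NormedSpace ℝ E] {f : E → ℝ} {x : E}
    (a b : ℝ) (hf : ContDiffAt ℝ 1 f x) : ContDiffAt ℝ 1 (fun y => sg a b (f y)) x :=
  (sg_contDiff a b).contDiffAt.comp x hf

@[fun_prop]
lemma ContDiff.sg {E : Type*} [NormedAddCommGroup E] [NormedSpace ℝ E] {f : E → ℝ}
    (a b : ℝ) (hf : ContDiff ℝ 1 f) : ContDiff ℝ 1 (fun y => sg a b (f y)) :=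
  (sg_contDiff a b).comp hf

@[fun_prop]
lemma Continuous.sg {E : Type*} [TopologicalSpace E] {f : E → ℝ}
    (a b : ℝ) (hf : Continuous f) : Continuous (fun y => sg a b (f y)) :=
  (sg_contDiff a b).continuous.comp hf

@[fun_prop]
lemma ContDiffAt.normSq {E : Type*} [NormedAddCommGroup E] [NormedSpace ℝ E] {f : E → ℂ} {x : E}
    (hf : ContDiffAt ℝ 1 f x) : ContDiffAt ℝ 1 (fun y => normSq (f y)) x := by
  simp only [normSq_apply]
  have h1 : ContDiffAt ℝ 1 (fun y => (f y).re) x := Complex.reCLM.contDiff.contDiffAt.comp x hf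
  have h2 : ContDiffAt ℝ 1 (fun y => (f y).im) x := Complex.imCLM.contDiff.contDiffAt.comp x hf
  exact (h1.mul h1).add (h2.mul h2)

@[fun_prop]
lemma ContDiffAt.ofReal' {E : Type*} [NormedAddCommGroup E] [NormedSpace ℝ E] {f : E → ℝ} {x : E}
    (hf : ContDiffAt ℝ 1 f x) : ContDiffAt ℝ 1 (fun y => (f y : ℂ)) x :=
  Complex.ofRealCLM.contDiff.contDiffAt.comp x hf

@[fun_prop]
lemma ContDiffAt.re' {E : Type*} [NormedAddCommGroup E] [NormedSpace ℝ E] {f : E → ℂ} {x : E}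
    (hf : ContDiffAt ℝ 1 f x) : ContDiffAt ℝ 1 (fun y => (f y).re) x :=
  Complex.reCLM.contDiff.contDiffAt.comp x hf

@[fun_prop]
lemma ContDiffAt.im' {E : Type*} [NormedAddCommGroup E] [NormedSpace ℝ E] {f : E → ℂ} {x : E}
    (hf : ContDiffAt ℝ 1 f x) : ContDiffAt ℝ 1 (fun y => (f y).im) x :=
  Complex.imCLM.contDiff.contDiffAt.comp x hf

@[fun_prop]
lemma ContDiffAt.conj' {E : Type*} [NormedAddCommGroup E] [NormedSpace ℝ E] {f : E → ℂ} {x : E}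
    (hf : ContDiffAt ℝ 1 f x) : ContDiffAt ℝ 1 (fun y => conj (f y)) x :=
  Complex.conjCLE.contDiff.contDiffAt.comp x hf

/-- the square of the phase. -/
def ph (ξ : ℂ) : ℂ := ξ * (conj ξ)⁻¹

lemma norm_ph_le (ξ : ℂ) : ‖ph ξ‖ ≤ 1 := by
  rw [ph, norm_mul, norm_inv, Complex.norm_conj]
  exact mul_inv_le_one

lemma ph_eq {ν : ℝ} {ζ : ℂ} (hν : ν ≠ 0) (hζ : ‖ζ‖ = 1) : ph (ν * ζ) = ζ ^ 2 := by
  have h1 : ζ * conj ζ = 1 := by rw [Complex.mul_conj, normSq_eq_norm_sq, hζ]; simp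
  have h2 : conj ζ ≠ 0 := fun h => by simp [h] at h1
  have h3 : (ν : ℂ) ≠ 0 := by exact_mod_cast hν
  rw [ph, map_mul, conj_ofReal]
  field_simp
  linear_combination (-ζ) * h1

def term (C : ℝ → ℝ) (j : ℕ) (z : ℝ × ℂ) : ℂ :=
  (C (2 ^ j * (z.1 * normSq z.2)) : ℂ) * ph z.2 ^ (2 ^ j)

lemma term_eventually {C : ℝ → ℝ} (h0 : ∀ t ≤ 1, C t = 0) (j : ℕ) {z : ℝ × ℂ}
    (hz : 2 ^ j * (z.1 * normSq z.2) < 1) : term C j =ᶠ[𝓝 z] fun _ => 0 := by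
  have hc : Continuous fun z : ℝ × ℂ => 2 ^ j * (z.1 * normSq z.2) := by fun_prop
  filter_upwards [hc.continuousAt.eventually (gt_mem_nhds hz)] with y hy
  simp [term, h0 _ hy.le]

lemma contDiff_term {C : ℝ → ℝ} (hC : ContDiff ℝ 1 C) (h0 : ∀ t ≤ 1, C t = 0) (j : ℕ) :
    ContDiff ℝ 1 (term C j) := by
  rw [contDiff_iff_contDiffAt]
  intro z
  by_cases hz : z.2 = 0
  · exact contDiffAt_const.congr_of_eventuallyEq (term_eventually h0 j (by simp [hz]))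
  · have h1 : ContDiffAt ℝ 1 (fun z : ℝ × ℂ => C (2 ^ j * (z.1 * normSq z.2))) z :=
      hC.contDiffAt.comp z (by fun_prop)
    have h2 : ContDiffAt ℝ 1 (fun z : ℝ × ℂ => (conj z.2)⁻¹) z :=
      ContDiffAt.inv (by fun_prop) (by simpa using hz)
    unfold term ph
    fun_prop

/-- differentiable with a bound on the derivative. -/
def DB {F : Type*} [NormedAddCommGroup F] [NormedSpace ℝ F] (f : ℝ × ℂ → F) (x : ℝ × ℂ)
    (L : ℝ) : Prop := ∃ f' : ℝ × ℂ →L[ℝ] F, HasFDerivAt f f' x ∧ ‖f'‖ ≤ L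

lemma DB.clm {F G : Type*} [NormedAddCommGroup F] [NormedSpace ℝ F] [NormedAddCommGroup G]
    [NormedSpace ℝ G] {f : ℝ × ℂ → F} {x : ℝ × ℂ} {L : ℝ} (h : DB f x L) (l : F →L[ℝ] G)
    (hl : ‖l‖ ≤ 1) : DB (fun y => l (f y)) x L := by
  obtain ⟨f', h1, h2⟩ := h
  refine ⟨l.comp f', l.hasFDerivAt.comp x h1, (l.opNorm_comp_le f').trans ?_⟩
  nlinarith [norm_nonneg f', norm_nonneg l]

lemma DB.mul {f g : ℝ × ℂ → ℂ} {x : ℝ × ℂ} {L M a b : ℝ} (hf : DB f x L) (hg : DB g x M)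
    (ha : ‖f x‖ ≤ a) (hb : ‖g x‖ ≤ b) : DB (fun y => f y * g y) x (a * M + b * L) := by
  obtain ⟨f', h1, h2⟩ := hf
  obtain ⟨g', h3, h4⟩ := hg
  refine ⟨_, h1.mul h3, (norm_add_le _ _).trans ?_⟩
  rw [norm_smul, norm_smul]
  gcongr
  · exact (norm_nonneg _).trans ha
  · exact (norm_nonneg _).trans hb

lemma DB.compC {f : ℝ × ℂ → ℂ} {x : ℝ × ℂ} {L K : ℝ} (hf : DB f x L) {h : ℂ → ℂ} {c : ℂ}
    (hh : HasDerivAt h c (f x)) (hc : ‖c‖ ≤ K) : DB (fun y => h (f y)) x (K * L) := by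
  obtain ⟨f', h1, h2⟩ := hf
  refine ⟨_, hh.comp_hasFDerivAt x h1, ?_⟩
  rw [norm_smul]
  gcongr
  exact (norm_nonneg _).trans hc

lemma DB.compR {f : ℝ × ℂ → ℝ} {x : ℝ × ℂ} {L K : ℝ} (hf : DB f x L) {h : ℝ → ℝ} {c : ℝ}
    (hh : HasDerivAt h c (f x)) (hc : ‖c‖ ≤ K) : DB (fun y => h (f y)) x (K * L) := by
  obtain ⟨f', h1, h2⟩ := hf
  refine ⟨_, hh.comp_hasFDerivAt x h1, ?_⟩
  rw [norm_smul]
  gcongr
  exact (norm_nonneg _).trans hc

lemma norm_fderiv_term {C : ℝ → ℝ} (hC : ContDiff ℝ 1 C) (h0 : ∀ t ≤ 1, C t = 0) {K R : ℝ}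
    (hK : ∀ t, ‖C t‖ ≤ K) (hK' : ∀ t, ‖deriv C t‖ ≤ K) (hR : 1 ≤ R) (j : ℕ) {z : ℝ × ℂ}
    (hz : ‖z‖ ≤ R) : ‖fderiv ℝ (term C j) z‖ ≤ 5 * K * R ^ 2 * 4 ^ j := by
  have hK0 : 0 ≤ K := (norm_nonneg _).trans (hK 0)
  rcases lt_or_ge (2 ^ j * (z.1 * normSq z.2)) 1 with h1 | h1
  · rw [(term_eventually h0 j h1).fderiv_eq]
    simp only [fderiv_fun_const, Pi.zero_apply, norm_zero]
    positivity
  have hz1 : ‖z.1‖ ≤ R := (norm_fst_le z).trans hz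
  have hz2 : ‖z.2‖ ≤ R := (norm_snd_le z).trans hz
  have hne : z.2 ≠ 0 := by
    intro h; rw [h] at h1; simp at h1; linarith
  have hpos : 0 < ‖z.2‖ := norm_pos_iff.2 hne
  have d1 : DB (fun y : ℝ × ℂ => y.1) z 1 :=
    ⟨_, hasFDerivAt_fst, ContinuousLinearMap.norm_fst_le _ _ _⟩
  have d2 : DB (fun y : ℝ × ℂ => y.2) z 1 :=
    ⟨_, hasFDerivAt_snd, ContinuousLinearMap.norm_snd_le _ _ _⟩
  have d3 : DB (fun y : ℝ × ℂ => (y.1 : ℂ)) z 1 := d1.clm Complex.ofRealCLM (by simp)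
  have d4 : DB (fun y : ℝ × ℂ => conj y.2) z 1 := d2.clm (Complex.conjCLE : ℂ →L[ℝ] ℂ) Complex.conjCLE_norm.le
  have d5 := d2.mul d4 hz2 (b := R) (by simpa using hz2)
  have d6 := d3.mul d5 (a := R) (b := R * R) (by simpa using hz1)
    (by rw [norm_mul, Complex.norm_conj]; gcongr)
  have d7 : DB (fun y : ℝ × ℂ => y.1 * normSq y.2) z (R * (R * 1 + R * 1) + R * R * 1) := by
    convert d6.clm Complex.reCLM (by simp) using 2 with y
    simp [Complex.mul_conj]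
  have d8 := d7.compR ((hasDerivAt_id (z.1 * normSq z.2)).const_mul (2 ^ j)) (K := 2 ^ j)
    (by simp)
  have d9 := (d8.compR (hC.differentiable one_ne_zero _).hasDerivAt (hK' _)).clm
    Complex.ofRealCLM (by simp)
  have d10 := d4.compC (hasDerivAt_inv (by simpa using hne)) (K := (‖z.2‖ ^ 2)⁻¹) (by simp)
  have d11 := d2.mul d10 le_rfl (b := ‖z.2‖⁻¹) (by simp)
  have d12 := d11.compC (hasDerivAt_pow (2 ^ j) (ph z.2)) (K := 2 ^ j) (by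
    rw [norm_mul, norm_pow]
    have := pow_le_one₀ (n := 2 ^ j - 1) (norm_nonneg _) (norm_ph_le z.2)
    simp only [Nat.cast_pow, Nat.cast_ofNat, norm_pow, Complex.norm_ofNat]
    exact mul_le_of_le_one_right (by positivity) this)
  obtain ⟨f', h2, h3⟩ := d9.mul d12 (a := K) (b := 1) (by simpa using hK _) (by
    rw [norm_pow]; exact pow_le_one₀ (norm_nonneg _) (norm_ph_le z.2))
  have : fderiv ℝ (term C j) z = f' := h2.fderiv
  rw [this]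
  refine h3.trans ?_
  have h4 : ‖z.2‖⁻¹ ≤ R ^ 2 * 2 ^ j := by
    rw [inv_le_iff_one_le_mul₀ hpos]
    refine h1.trans ?_
    rw [normSq_eq_norm_sq]
    have : z.1 ≤ R := (le_abs_self _).trans hz1
    calc 2 ^ j * (z.1 * ‖z.2‖ ^ 2) ≤ 2 ^ j * (R * (‖z.2‖ * R)) := by
          rw [sq]; gcongr
      _ = _ := by ring
  have h5 : ‖z.2‖ * ((‖z.2‖ ^ 2)⁻¹ * 1) + ‖z.2‖⁻¹ * 1 = 2 * ‖z.2‖⁻¹ := by
    field_simp; ring
  have h6 : (2 : ℝ) ^ j ≤ 4 ^ j := by gcongr; norm_num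
  have h7 : (4 : ℝ) ^ j = 2 ^ j * 2 ^ j := by rw [← mul_pow]; norm_num
  rw [h5]
  calc _ ≤ K * (2 ^ j * (2 * (R ^ 2 * 2 ^ j))) +
        1 * (K * (4 ^ j * (R * (R * 1 + R * 1) + R * R * 1))) := by gcongr
    _ = _ := by rw [h7]; ring

/-- the lacunary series. -/
def psi0 (C : ℝ → ℝ) (ρ : ℝ) (ζ : ℂ) : ℂ :=
  ∑' j : ℕ, (16 ^ j)⁻¹ * ((C (2 ^ j * ρ) : ℂ) * ζ ^ (2 ^ j))

lemma norm_psi_term {C : ℝ → ℝ} {K : ℝ} (hK : ∀ t, ‖C t‖ ≤ K) (ρ : ℝ) {ζ : ℂ} (hζ : ‖ζ‖ ≤ 1)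
    (j : ℕ) : ‖(16 ^ j : ℂ)⁻¹ * ((C (2 ^ j * ρ) : ℂ) * ζ ^ (2 ^ j))‖ ≤ K * (1 / 16) ^ j := by
  rw [norm_mul, norm_mul, norm_inv, norm_pow, norm_pow, Complex.norm_real, mul_comm]
  have := pow_le_one₀ (n := 2 ^ j) (norm_nonneg _) hζ
  have h2 := hK (2 ^ j * ρ)
  have h3 : ‖C (2 ^ j * ρ)‖ * ‖ζ‖ ^ 2 ^ j ≤ K := by
    nlinarith [norm_nonneg (C (2 ^ j * ρ)), pow_nonneg (norm_nonneg ζ) (2 ^ j)]
  simp only [Complex.norm_ofNat, one_div, inv_pow]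
  gcongr

lemma summable_geo (K : ℝ) : Summable fun j : ℕ => K * (1 / 16 : ℝ) ^ j :=
  (summable_geometric_of_lt_one (by norm_num) (by norm_num)).mul_left K

lemma norm_psi0 {C : ℝ → ℝ} {K : ℝ} (hK : ∀ t, ‖C t‖ ≤ K) (ρ : ℝ) {ζ : ℂ} (hζ : ‖ζ‖ ≤ 1) :
    ‖psi0 C ρ ζ‖ ≤ K * (16 / 15) := by
  refine tsum_of_norm_bounded ?_ (norm_psi_term hK ρ hζ)
  have := (hasSum_geometric_of_lt_one (r := 1 / 16) (by norm_num) (by norm_num)).mul_left K
  rwa [show (1 - 1 / 16 : ℝ)⁻¹ = 16 / 15 by norm_num] at this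

lemma psi0_rec {C : ℝ → ℝ} {K : ℝ} (hK : ∀ t, ‖C t‖ ≤ K) (ρ : ℝ) {ζ : ℂ} (hζ : ‖ζ‖ ≤ 1) :
    psi0 C ρ ζ = C ρ * ζ + 16⁻¹ * psi0 C (2 * ρ) (ζ ^ 2) := by
  rw [psi0, Summable.tsum_eq_zero_add
    (Summable.of_norm_bounded (summable_geo K) (norm_psi_term hK ρ hζ)), psi0, ← tsum_mul_left]
  congr 1
  · simp
  · refine tsum_congr fun j => ?_
    rw [← pow_mul, pow_succ, pow_succ, pow_succ', mul_assoc (2 ^ j : ℝ), mul_inv]
    ring

lemma psi0_zero {C : ℝ → ℝ} {ρ : ℝ} (h : ∀ j : ℕ, C (2 ^ j * ρ) = 0) (ζ : ℂ) :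
    psi0 C ρ ζ = 0 := by
  simp [psi0, h]

lemma contDiff_psi0 {C : ℝ → ℝ} (hC : ContDiff ℝ 1 C) (h0 : ∀ t ≤ 1, C t = 0)
    (h4 : ∀ t, 4 ≤ t → C t = 0) :
    ContDiff ℝ 1 fun z : ℝ × ℂ => psi0 C (z.1 * normSq z.2) (ph z.2) := by
  have hs : HasCompactSupport C := by
    refine HasCompactSupport.intro (isCompact_Icc (a := 1) (b := 4)) fun t ht => ?_
    rw [Set.mem_Icc, not_and_or, not_le, not_le] at ht
    rcases ht with ht | ht
    · exact h0 t ht.le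
    · exact h4 t ht.le
  obtain ⟨K1, hK1⟩ := hs.exists_bound_of_continuous hC.continuous
  obtain ⟨K2, hK2⟩ := hs.deriv.exists_bound_of_continuous (hC.continuous_deriv le_rfl)
  have hK : ∀ t, ‖C t‖ ≤ max K1 K2 := fun t => (hK1 t).trans (le_max_left _ _)
  have hK' : ∀ t, ‖deriv C t‖ ≤ max K1 K2 := fun t => (hK2 t).trans (le_max_right _ _)
  set K := max K1 K2
  rw [contDiff_iff_contDiffAt]
  intro z
  rw [contDiffAt_one_iff]
  set R := ‖z‖ + 1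
  have hR : 1 ≤ R := by simp [R]
  have hz : z ∈ Metric.ball (0 : ℝ × ℂ) R := by simp [R]
  have hu : Summable fun j : ℕ => 5 * K * R ^ 2 * (1 / 4 : ℝ) ^ j :=
    (summable_geometric_of_lt_one (by norm_num) (by norm_num)).mul_left _
  have hb : ∀ j, ∀ x ∈ Metric.ball (0 : ℝ × ℂ) R,
      ‖(16 ^ j : ℂ)⁻¹ • fderiv ℝ (term C j) x‖ ≤ 5 * K * R ^ 2 * (1 / 4 : ℝ) ^ j := by
    intro j x hx
    have := norm_fderiv_term hC h0 hK hK' hR j (mem_ball_zero_iff.1 hx).le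
    rw [norm_smul, norm_inv, norm_pow, Complex.norm_ofNat, inv_mul_le_iff₀ (by positivity)]
    refine this.trans (le_of_eq ?_)
    rw [show (4 : ℝ) ^ j = 16 ^ j * (1 / 4) ^ j by rw [← mul_pow]; norm_num]
    ring
  refine ⟨fun x => ∑' j, (16 ^ j : ℂ)⁻¹ • fderiv ℝ (term C j) x, Metric.ball 0 R,
    Metric.isOpen_ball.mem_nhds hz, ?_, fun x hx => ?_⟩
  · refine continuousOn_tsum (fun j => ?_) hu hb
    exact (((contDiff_term hC h0 j).continuous_fderiv one_ne_zero).const_smul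
      (16 ^ j : ℂ)⁻¹).continuousOn
  · refine hasFDerivAt_tsum_of_isPreconnected (f := fun j y => (16 ^ j : ℂ)⁻¹ * term C j y) hu
      Metric.isOpen_ball (convex_ball 0 R).isPreconnected (fun j y _ => ?_) hb hz ?_ hx
    · exact ((contDiff_term hC h0 j).differentiable one_ne_zero y).hasFDerivAt.const_mul _
    · exact Summable.of_norm_bounded (summable_geo K) (norm_psi_term hK _ (norm_ph_le _))

def top (t : ℝ) : ℝ := 16 * sg (5 / 2) 3 t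
def cA (t : ℝ) : ℝ := 16 * sg (3 / 2) (7 / 4) t - top t
def cB (t : ℝ) : ℝ := 32 * (sg 2 (5 / 2) t * (1 - sg (7 / 2) 4 t))

lemma top_zero {t : ℝ} (h : t ≤ 5 / 2) : top t = 0 := by rw [top, sg_zero (by norm_num) h]; simp
lemma cA_zero {t : ℝ} (h : t ≤ 3 / 2) : cA t = 0 := by
  rw [cA, top_zero (by linarith), sg_zero (by norm_num) h]; simp
lemma cA_zero' {t : ℝ} (h : 3 ≤ t) : cA t = 0 := by
  rw [cA, top, sg_one (by norm_num) (by linarith), sg_one (by norm_num) h]; simp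
lemma cB_zero {t : ℝ} (h : t ≤ 2) : cB t = 0 := by rw [cB, sg_zero (by norm_num) h]; simp
lemma cB_zero' {t : ℝ} (h : 4 ≤ t) : cB t = 0 := by
  rw [cB, sg_one (a := 7 / 2) (by norm_num) h]; simp
lemma cB_nonneg (t : ℝ) : 0 ≤ cB t :=
  mul_nonneg (by norm_num) (mul_nonneg (sg_nonneg _ _ _) (sub_nonneg.2 (sg_le_one _ _ _)))
lemma cA_bound (t : ℝ) : ‖cA t‖ ≤ 16 := by
  rw [Real.norm_eq_abs, abs_le, cA, top]
  constructor <;>
  linarith [sg_nonneg (3 / 2) (7 / 4) t, sg_le_one (3 / 2) (7 / 4) t, sg_nonneg (5 / 2) 3 t,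
    sg_le_one (5 / 2) 3 t]
lemma cB_bound (t : ℝ) : ‖cB t‖ ≤ 32 := by
  rw [Real.norm_of_nonneg (cB_nonneg t), cB]
  nlinarith [sg_nonneg 2 (5 / 2) t, sg_le_one 2 (5 / 2) t, sg_nonneg (7 / 2) 4 t,
    sg_le_one (7 / 2) 4 t]

/-- the invariant cone. -/
def Psi (ρ : ℝ) (ζ : ℂ) : ℂ × ℂ := (psi0 cA ρ ζ + top ρ * ζ, psi0 cB ρ ζ)

lemma contDiff_Psi : ContDiff ℝ 1 fun z : ℝ × ℂ => Psi (z.1 * normSq z.2) (ph z.2) := by
  have h1 := contDiff_psi0 (C := cA) (by unfold cA top; fun_prop)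
    (fun t ht => cA_zero (by linarith)) (fun t ht => cA_zero' (by linarith))
  have h2 := contDiff_psi0 (C := cB) (by unfold cB; fun_prop)
    (fun t ht => cB_zero (by linarith)) (fun t ht => cB_zero' ht)
  have h3 := contDiff_term (C := top) (by unfold top; fun_prop)
    (fun t ht => top_zero (by linarith)) 0
  refine (h1.add ?_).prodMk h2
  convert h3 using 2 with z
  simp [term]

lemma Psi_zero (ζ : ℂ) : Psi 0 ζ = 0 := by
  rw [Psi, psi0_zero (fun j => cA_zero (by norm_num)), psi0_zero (fun j => cB_zero (by norm_num)),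
    top_zero (by norm_num)]
  simp

lemma norm_sq_le {ζ : ℂ} (hζ : ‖ζ‖ ≤ 1) : ‖ζ ^ 2‖ ≤ 1 := by
  rw [norm_pow]; exact pow_le_one₀ (norm_nonneg _) hζ

lemma Psi_double {ρ : ℝ} (h : ρ ≤ 5 / 4) {ζ : ℂ} (hζ : ‖ζ‖ ≤ 1) :
    16 * (Psi ρ ζ).1 = (Psi (2 * ρ) (ζ ^ 2)).1 ∧ 16 * (Psi ρ ζ).2 = (Psi (2 * ρ) (ζ ^ 2)).2 := by
  simp only [Psi]
  rw [psi0_rec cA_bound ρ hζ, psi0_rec cB_bound ρ hζ, cA_zero (by linarith),
    cB_zero (by linarith), top_zero (by linarith), top_zero (by linarith)]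
  constructor <;> simp

lemma norm_Psi (ρ : ℝ) {ζ : ℂ} (hζ : ‖ζ‖ ≤ 1) :
    ‖(Psi ρ ζ).1‖ ≤ 35 ∧ ‖(Psi ρ ζ).2‖ ≤ 35 := by
  have h1 := norm_psi0 cA_bound ρ hζ
  have h2 := norm_psi0 cB_bound ρ hζ
  refine ⟨(norm_add_le _ _).trans ?_, by simp only [Psi]; linarith⟩
  have h3 : 0 ≤ top ρ := mul_nonneg (by norm_num) (sg_nonneg _ _ _)
  have h4 : top ρ ≤ 16 := by unfold top; linarith [sg_le_one (5 / 2) 3 ρ]
  rw [norm_mul, Complex.norm_real, Real.norm_of_nonneg h3]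
  nlinarith [norm_nonneg ζ]

lemma norm_Psi_small {ρ : ℝ} (h : ρ ≤ 5 / 4) {ζ : ℂ} (hζ : ‖ζ‖ ≤ 1) :
    ‖(Psi ρ ζ).1‖ ≤ 35 / 16 ∧ ‖(Psi ρ ζ).2‖ ≤ 35 / 16 := by
  obtain ⟨h1, h2⟩ := Psi_double h hζ
  obtain ⟨h3, h4⟩ := norm_Psi (2 * ρ) (norm_sq_le hζ)
  rw [← h1, norm_mul, Complex.norm_ofNat] at h3
  rw [← h2, norm_mul, Complex.norm_ofNat] at h4
  constructor <;> linarith

/-- the decoder. -/
def dec (v w : ℂ) : ℂ :=
  ((1 - sg 9 16 (normSq v)) * sg 1 4 (normSq w) : ℝ) * w + (sg 9 16 (normSq v) : ℝ) * v ^ 2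

lemma dec_zero {v w : ℂ} (hv : ‖v‖ ≤ 3) (hw : ‖w‖ ≤ 1) : dec v w = 0 := by
  rw [dec, sg_zero (by norm_num) (t := normSq v), sg_zero (by norm_num) (t := normSq w)]
  · simp
  · rw [normSq_eq_norm_sq]; nlinarith [norm_nonneg w]
  · rw [normSq_eq_norm_sq]; nlinarith [norm_nonneg v]

lemma dec_mul (a b : ℝ) {ζ : ℂ} (hζ : ‖ζ‖ = 1) : dec (a * ζ) (b * ζ ^ 2) =
    ((1 - sg 9 16 (a ^ 2)) * sg 1 4 (b ^ 2) * b + sg 9 16 (a ^ 2) * a ^ 2 : ℝ) * ζ ^ 2 := by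
  have h1 : normSq (a * ζ) = a ^ 2 := by simp [normSq_eq_norm_sq, hζ]
  have h2 : normSq (b * ζ ^ 2) = b ^ 2 := by simp [normSq_eq_norm_sq, hζ]
  rw [dec, h1, h2]
  push_cast
  ring

lemma two_pow_mul_ge {ρ c : ℝ} (hc : 0 ≤ c) (h : c ≤ ρ) (j : ℕ) : c ≤ 2 ^ j * ρ := by
  have : (1 : ℝ) ≤ 2 ^ j := one_le_pow₀ (by norm_num)
  nlinarith

lemma dec_Psi (ρ : ℝ) {ζ : ℂ} (hζ : ‖ζ‖ = 1) :
    ∃ Γ : ℝ, 0 ≤ Γ ∧ dec (Psi ρ ζ).1 (Psi ρ ζ).2 = Γ * ζ ^ 2 ∧ (ρ ≤ 1 → Γ = 0) ∧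
      (5 / 4 ≤ ρ → 2 ≤ Γ) := by
  have hζ2 := norm_sq_le hζ.le
  rcases le_or_gt ρ 1 with h1 | h1
  · refine ⟨0, le_rfl, ?_, fun _ => rfl, fun h => by linarith⟩
    rw [dec_zero]
    · simp
    · linarith [(norm_Psi_small (ρ := ρ) (by linarith) hζ.le).1]
    · simp only [Psi]
      rw [psi0_rec cB_bound ρ hζ.le, psi0_rec cB_bound _ hζ2, cB_zero (by linarith),
        cB_zero (by linarith)]
      have := norm_psi0 cB_bound (2 * (2 * ρ)) (norm_sq_le hζ2)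
      simp only [ofReal_zero, zero_mul, zero_add, norm_mul, norm_inv, Complex.norm_ofNat]
      linarith
  rcases le_or_gt 2 ρ with h2 | h2
  · have e1 : (Psi ρ ζ).1 = 16 * ζ := by
      simp only [Psi]
      rw [psi0_rec cA_bound ρ hζ.le, psi0_zero fun j => cA_zero'
        (two_pow_mul_ge (by norm_num) (by linarith) j), cA, sg_one (by norm_num) (by linarith)]
      push_cast; ring
    refine ⟨256, by norm_num, ?_, fun h => by linarith, fun _ => by norm_num⟩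
    rw [e1, dec, sg_one (by norm_num) (t := normSq (16 * ζ))]
    · push_cast; ring
    · simp [normSq_eq_norm_sq, hζ]; norm_num
  have e2 : (Psi ρ ζ).2 = (cB (2 * ρ) / 16 : ℝ) * ζ ^ 2 := by
    simp only [Psi]
    rw [psi0_rec cB_bound ρ hζ.le, psi0_rec cB_bound _ hζ2, cB_zero (by linarith),
      psi0_zero fun j => cB_zero' (two_pow_mul_ge (by norm_num) (by linarith) j)]
    push_cast; ring
  have hb0 : 0 ≤ cB (2 * ρ) / 16 := by linarith [cB_nonneg (2 * ρ)]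
  have hb2 : 5 / 4 ≤ ρ → ρ ≤ 7 / 4 → cB (2 * ρ) / 16 = 2 := by
    intro k1 k2
    rw [cB, sg_one (by norm_num) (by linarith), sg_zero (by norm_num) (by linarith)]
    norm_num
  rcases le_or_gt ρ (3 / 2) with h3 | h3
  · have hv : ‖(Psi ρ ζ).1‖ ≤ 3 := by
      simp only [Psi]
      rw [psi0_rec cA_bound ρ hζ.le, cA_zero h3, top_zero (by linarith)]
      have := norm_psi0 cA_bound (2 * ρ) hζ2
      simp only [ofReal_zero, zero_mul, zero_add, add_zero, norm_mul, norm_inv, Complex.norm_ofNat]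
      linarith
    have e3 : dec (Psi ρ ζ).1 (Psi ρ ζ).2 = dec ((0 : ℝ) * ζ) (Psi ρ ζ).2 := by
      rw [dec, dec, sg_zero (by norm_num) (t := normSq (Psi ρ ζ).1),
        sg_zero (by norm_num) (t := normSq ((0 : ℝ) * ζ))]
      · simp
      · simp
      · rw [normSq_eq_norm_sq]; nlinarith [norm_nonneg (Psi ρ ζ).1]
    rw [e3, e2, dec_mul _ _ hζ, sg_zero (a := 9) (by norm_num) (by norm_num)]
    refine ⟨_, ?_, rfl, fun h => by linarith, fun h => ?_⟩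
    · have := mul_nonneg (sg_nonneg 1 4 ((cB (2 * ρ) / 16) ^ 2)) hb0
      linarith
    · rw [hb2 h (by linarith), sg_one (by norm_num) (by norm_num)]
      norm_num
  have e1 : (Psi ρ ζ).1 = (16 * sg (3 / 2) (7 / 4) ρ : ℝ) * ζ := by
    simp only [Psi]
    rw [psi0_rec cA_bound ρ hζ.le, psi0_zero fun j => cA_zero'
      (two_pow_mul_ge (by norm_num) (by linarith) j), cA]
    push_cast; ring
  rw [e1, e2, dec_mul _ _ hζ]
  set a := 16 * sg (3 / 2) (7 / 4) ρ with ha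
  have key : 2 ≤ (1 - sg 9 16 (a ^ 2)) * sg 1 4 ((cB (2 * ρ) / 16) ^ 2) * (cB (2 * ρ) / 16) +
      sg 9 16 (a ^ 2) * a ^ 2 := by
    rcases le_or_gt ρ (7 / 4) with h4 | h4
    · rw [hb2 (by linarith) h4, sg_one (a := 1) (by norm_num) (by norm_num)]
      rcases le_or_gt (a ^ 2) 9 with h5 | h5
      · rw [sg_zero (by norm_num) h5]; norm_num
      · nlinarith [sg_nonneg 9 16 (a ^ 2)]
    · rw [ha, sg_one (a := 3 / 2) (by norm_num) h4.le, sg_one (a := 9) (by norm_num) (by norm_num)]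
      norm_num
  exact ⟨_, by linarith, rfl, fun h => by linarith, fun _ => key⟩

end Crest.Agent.R123
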