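import Crest.Agent.R123.Dyn

/-! The map has zero topological entropy. -/

set_option autoImplicit false
open Complex ComplexConjugate Filter Topology
open scoped Classical

noncomputable section
namespace Crest.Agent.R123

def PP : Set MM := {x | (tau x).re ≤ 0 ∧ 0 ≤ (tau x).im}
def EE : Set MM := {x | eta x ≤ 3 / 5}

lemma mapsTo_EE : Set.MapsTo ff EE EE := fun _ hx => (step_E hx).trans (by norm_num)

lemma ps_deep {x : MM} (h : eta x ≤ -(1 / 3)) : ps (eta x) (vv x) (ww x) = 0 := by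
  rw [ps, sg_zero (by norm_num) (by linarith), zero_mul]

lemma not_P_of_Z {x : MM} (h : ZZ (tau x)) : x ∉ PP := fun h' => by
  linarith [h.1, h.2, h'.1, h'.2]

lemma visits_DZ {x : MM} (h : eta x ≤ -(1 / 3)) (hZ : ZZ (tau x)) (N : ℕ) :
    visits ff PP x N ≤ 0 :=
  visits_le_of_inv ff PP {x | eta x ≤ -(1 / 3) ∧ ZZ (tau x)}
    (fun _ hx => ⟨step_D (hx.1.trans (by norm_num)), ZZ_step hx.2 (ps_deep hx.1)⟩) 0
    (fun _ hx hP => absurd hP (not_P_of_Z hx.2)) x ⟨h, hZ⟩ N

lemma visits_D {x : MM} (h : eta x ≤ -(1 / 3)) (N : ℕ) : visits ff PP x N ≤ 2 := by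
  refine visits_le_of_inv ff PP {x | eta x ≤ -(1 / 3)}
    (fun _ hx => step_D (le_trans hx (by norm_num))) 2 (fun y hy hP => ?_) x h N
  have h1 : eta (ff y) ≤ -(1 / 3) := step_D (le_trans hy (by norm_num))
  have h4 : 1 ≤ -(tau y).re + (tau y).im :=
    one_le_add' (by linarith [hP.1]) hP.2 (by rw [neg_sq]; exact re_im (norm_tau y))
  obtain ⟨e1, e2⟩ := tau_ff_rot (x := y) (by linarith [hP.1])
  refine visits_le_add ff PP y 2 0 (visits_DZ (step_D (h1.trans (by norm_num))) ?_)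
  rcases le_or_gt (1 / 2) ((tau (ff y)).re - (tau (ff y)).im) with h2 | h2
  · exact ZZ_step ⟨h2, by linarith [hP.1]⟩ (ps_deep h1)
  · exact Q_step (by linarith [hP.2]) (by linarith [hP.1]) h2

lemma visits_E {x : MM} (h : eta x ≤ 3 / 5) (N : ℕ) : visits ff PP x N ≤ 4 :=
  visits_le_add ff PP x 2 2 (visits_D (step_D (step_E h))) N

lemma visits_G {x : MM} (h : Good x ∨ eta x ≤ 3 / 5) (N : ℕ) : visits ff PP x N ≤ 4 := by
  refine visits_le_of_inv ff PP {x | Good x ∨ eta x ≤ 3 / 5} (fun y hy => ?_) 4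
    (fun y hy hP => ?_) x h N
  · rcases le_or_gt (eta y) (3 / 5) with h1 | h1
    · exact Or.inr (mapsTo_EE h1)
    · exact good_step (hy.resolve_right h1.not_ge) h1
  · exact visits_E (hy.resolve_left fun hG => not_P_of_Z hG.1 hP)

lemma visits_all (x : MM) (N : ℕ) : visits ff PP x N ≤ 6 := by
  refine visits_le_of_inv ff PP Set.univ (Set.mapsTo_univ _ _) 6 (fun y _ hP => ?_) x trivial N
  refine visits_le_add ff PP y 2 4 (visits_G ?_)
  rcases le_or_gt (eta y) (3 / 5) with h1 | h1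
  · exact Or.inr (mapsTo_EE (mapsTo_EE h1))
  rcases le_or_gt (eta (ff y)) (3 / 5) with h2 | h2
  · exact Or.inr (mapsTo_EE h2)
  · exact pre_step (P_step hP.1 hP.2 h1) h2

lemma arg_step (x : MM) : Real.pi / 2 * hx x ≤ arg (tau (ff x)) - arg (tau x) +
    5 * Real.pi / 2 * (if x ∈ PP then 1 else 0) := by
  have hpi := Real.pi_pos
  have h0 := hx_nonneg x
  have h1 := hx_le_one x
  split_ifs with h
  · nlinarith [neg_pi_lt_arg (tau (ff x)), arg_le_pi (tau x)]
  · have h2 : arg (tau x) < Real.pi / 2 := by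
      rw [Complex.arg_lt_pi_div_two_iff]
      by_contra hc
      push Not at hc
      exact h ⟨hc.1, hc.2.1⟩
    have h3 : tau (ff x) = cexp ((arg (tau x) + Real.pi / 2 * hx x : ℝ) * I) := by
      rw [tau_ff]
      nth_rewrite 1 [← Complex.norm_mul_exp_arg_mul_I (tau x)]
      rw [norm_tau, ofReal_add, add_mul, Complex.exp_add]
      simp
    rw [h3, Complex.exp_mul_I, ← ofReal_cos, ← ofReal_sin]
    push_cast
    have := Complex.arg_cos_add_sin_mul_I (θ := arg (tau x) + Real.pi / 2 * hx x)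
      ⟨by nlinarith [neg_pi_lt_arg (tau x)], by nlinarith⟩
    push_cast at this
    rw [this]
    linarith

lemma sum_hx (x : MM) (N : ℕ) : ∑ n ∈ Finset.range N, hx (ff^[n] x) ≤ 34 := by
  have key : Real.pi / 2 * ∑ n ∈ Finset.range N, hx (ff^[n] x) ≤
      arg (tau (ff^[N] x)) - arg (tau x) +
      5 * Real.pi / 2 * ∑ n ∈ Finset.range N, (if ff^[n] x ∈ PP then (1 : ℝ) else 0) := by
    induction N with
    | zero => simp
    | succ N ih =>
      rw [Finset.sum_range_succ, Finset.sum_range_succ, Function.iterate_succ_apply']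
      linarith [arg_step (ff^[N] x)]
  have h1 : ∑ n ∈ Finset.range N, (if ff^[n] x ∈ PP then (1 : ℝ) else 0) ≤ 6 := by
    have := visits_all x N
    rw [visits, Finset.card_filter] at this
    exact_mod_cast this
  have hpi := Real.pi_pos
  have h2 : Real.pi / 2 * ∑ n ∈ Finset.range N, hx (ff^[n] x) ≤ Real.pi / 2 * 34 := by
    nlinarith [neg_pi_lt_arg (tau x), arg_le_pi (tau (ff^[N] x))]
  exact le_of_mul_le_mul_left h2 (by positivity)

lemma visits_bad {c : ℝ} (hc : 0 < c) (x : MM) (N : ℕ) :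
    visits ff {x | c ≤ hx x} x N ≤ ⌈34 / c⌉₊ := by
  have h1 : (visits ff {x | c ≤ hx x} x N : ℝ) * c ≤ 34 := by
    refine le_trans ?_ (sum_hx x N)
    rw [visits, ← nsmul_eq_mul]
    refine (Finset.card_nsmul_le_sum _ (fun n => hx (ff^[n] x)) c
      fun n hn => (Finset.mem_filter.1 hn).2).trans ?_
    exact Finset.sum_le_sum_of_subset_of_nonneg (Finset.filter_subset _ _)
      fun _ _ _ => hx_nonneg _
  have h2 := ((le_div_iff₀ hc).2 h1).trans (Nat.le_ceil _)
  exact_mod_cast h2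

def pN : S2 := nrm 0 1 (one_pos' 0)
def pS : S2 := nrm 0 (-1) (by simp)
def t1 : S1 := ⟨1, by simp⟩

lemma dist_pN {p : S2} (h : 0 ≤ tc p) : dist p pN ^ 2 ≤ 2 * normSq (zc p) := by
  rw [dist_S2, pN, zc_nrm, tc_nrm]
  have := onS p
  simp only [map_zero, one_pow, zero_add, Real.sqrt_one, inv_one, mul_zero, sub_zero, mul_one]
  nlinarith [normSq_nonneg (zc p)]

lemma dist_pS {p : S2} (h : tc p ≤ 0) : dist p pS ^ 2 ≤ 2 * normSq (zc p) := by
  rw [dist_S2, pS, zc_nrm, tc_nrm]
  have := onS p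
  simp only [map_zero, neg_one_sq, zero_add, Real.sqrt_one, inv_one, mul_zero, sub_zero, one_mul]
  nlinarith [normSq_nonneg (zc p)]

lemma dist_nrm (v : ℂ) : dist (nrm v 1 (one_pos' v)) pN ^ 2 ≤ 2 * normSq v := by
  refine (dist_pN (by rw [tc_nrm]; positivity)).trans ?_
  rw [zc_nrm, map_mul, normSq_ofReal]
  have h1 : 1 ≤ √(normSq v + 1 ^ 2) := by
    rw [Real.one_le_sqrt]; linarith [normSq_nonneg v]
  have h2 : (√(normSq v + 1 ^ 2))⁻¹ ≤ 1 := inv_le_one_of_one_le₀ h1
  have h3 : 0 ≤ (√(normSq v + 1 ^ 2))⁻¹ := by positivity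
  nlinarith [mul_le_mul_of_nonneg_right (mul_le_one₀ h2 h3 h2) (normSq_nonneg v)]

lemma exists_c {ε : ℝ} (hε : 0 < ε) :
    ∃ c > 0, c ≤ 1 ∧ ∀ τ : S1, h0 τ < c → dist τ t1 < ε := by
  have hK : IsCompact {τ : S1 | ε ≤ dist τ t1} :=
    (isClosed_le continuous_const (by fun_prop)).isCompact
  have hc : Continuous fun τ : S1 => h0 τ := by unfold h0; fun_prop
  obtain ⟨c, hc0, hc1⟩ := hK.exists_forall_le' hc.continuousOn (a := 0) fun τ hτ => by
    refine h0_pos (mem_sphere_zero_iff_norm.1 τ.2) fun h => ?_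
    have : τ = t1 := Subtype.ext h
    rw [this, Set.mem_ofPred_eq, dist_self] at hτ
    linarith
  refine ⟨min c 1, by positivity, min_le_right _ _, fun τ hτ => ?_⟩
  by_contra h
  linarith [hc1 τ (not_lt.1 h), min_le_left c 1]

lemma regime {x : MM} (h : hx x < 1) :
    eta x < 0 ∨ (9 / 10 < eta x ∧ normSq (vv x) + normSq (ww x) < 16) := by
  have h1 := (ps_le_hx x).trans_lt h
  by_contra hc
  push Not at hc
  rw [ps, sg_one (by norm_num) hc.1] at h1
  rcases le_or_gt (eta x) (9 / 10) with h2 | h2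
  · rw [sg_zero (by norm_num) h2] at h1; norm_num at h1
  · rw [sg_one (a := 10) (by norm_num) (hc.2 h2)] at h1; norm_num at h1

lemma north_step {x : MM} (h1 : 9 / 10 < eta x) (h2 : normSq (vv x) + normSq (ww x) < 16)
    (h3 : dist x.1 t1 < 1 / 4) :
    vx x = vv (ff x) ∧ wx x = ww (ff x) ∧ vv (ff x) = 16 * vv x ∧ ww (ff x) = 16 * ww x := by
  have h4 : ‖tau x - 1‖ < 1 / 4 := by rwa [Subtype.dist_eq, dist_eq_norm] at h3
  have h5 := (abs_re_le_norm _).trans_lt h4
  have h6 := (abs_im_le_norm _).trans_lt h4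
  rw [abs_lt] at h5 h6
  simp only [sub_re, one_re, sub_im, one_im] at h5 h6
  have ky : ∀ v e : ℂ, yy (tau x) (eta x) v e = 16 * v := by
    intro v e
    rw [yy, sg_one (by norm_num) (by linarith), sg_one (a := 0) (by norm_num) (by linarith)]
    simp
  have hv : vx x = 16 * vv x := ky _ _
  have hw : wx x = 16 * ww x := ky _ _
  rw [normSq_eq_norm_sq, normSq_eq_norm_sq] at h2
  have b1 : ‖vv x‖ ≤ 4 := by nlinarith [norm_nonneg (vv x), norm_nonneg (ww x)]
  have b2 : ‖ww x‖ ≤ 4 := by nlinarith [norm_nonneg (vv x), norm_nonneg (ww x)]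
  rw [vv_ff (by rw [hv, norm_mul, Complex.norm_ofNat]; linarith),
    ww_ff (by rw [hw, norm_mul, Complex.norm_ofNat]; linarith)]
  exact ⟨rfl, rfl, hv, hw⟩

lemma near_of {ε c : ℝ} (hε : 0 < ε) (hc1 : c ≤ 1)
    (hc : ∀ τ : S1, h0 τ < c → dist τ t1 < min ε (1 / 4)) {L : ℕ}
    (hL : 32 * (1 / 2 : ℝ) ^ (L + 1) < ε ^ 2) (x : MM)
    (h : ∀ i ≤ 2 * (L + 1), hx (ff^[i] x) < c) :
    Near (t1, pN, pN, pN) (t1, pS, pN, pN) EE ε (ff^[L + 1] x) := by
  have hτ : ∀ i ≤ 2 * (L + 1), dist (ff^[i] x).1 t1 < min ε (1 / 4) :=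
    fun i hi => hc _ ((h0_le_hx _).trans_lt (h i hi))
  have hreg := fun i hi => regime ((h i hi).trans_le hc1)
  have hlt : ∀ {d : ℝ}, d ^ 2 ≤ 32 * (1 / 2 : ℝ) ^ (L + 1) → d < ε :=
    fun hd => lt_of_pow_lt_pow_left₀ 2 hε.le (hd.trans_lt hL)
  have hp : (0 : ℝ) < (1 / 2) ^ (L + 1) := by positivity
  have hhalf : (∀ i < L + 1, normSq (xi (ff (ff^[i] x))) ≤ normSq (xi (ff^[i] x)) / 2) →
      normSq (xi (ff^[L + 1] x)) ≤ (1 / 2) ^ (L + 1) := by
    intro hh
    have : ∀ i ≤ L + 1, normSq (xi (ff^[i] x)) ≤ (1 / 2) ^ i := by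
      intro i hi
      induction i with
      | zero => simp; nlinarith [xi_eta x]
      | succ i ih =>
        rw [Function.iterate_succ_apply', pow_succ]
        linarith [hh i hi, ih (by omega)]
    exact this _ le_rfl
  rcases hreg 0 (by omega) with h0 | h0
  · have hS : ∀ i, eta (ff^[i] x) ≤ 0 := by
      intro i
      induction i with
      | zero => exact h0.le
      | succ i ih =>
        rw [Function.iterate_succ_apply']
        linarith [step_D (ih.trans (by norm_num))]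
    have k1 := hhalf fun i _ =>
      step_half (nx_low ((hS i).trans (by norm_num))) (Or.inl (hS i))
    refine Or.inr ⟨(hS _).trans (by norm_num), ?_⟩
    simp only [Prod.dist_eq, max_lt_iff]
    refine ⟨(hτ _ (by omega)).trans_le (min_le_left _ _),
      hlt ((dist_pS (hS _)).trans (by change 2 * normSq (xi _) ≤ _; linarith)), ?_⟩
    rw [Function.iterate_succ_apply']
    have ky : ∀ v e : ℂ, yy (tau (ff^[L] x)) (eta (ff^[L] x)) v e = 0 := by
      intro v e
      rw [yy, sg_zero (by norm_num) (hS L)]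
      simp
    have hv : vx (ff^[L] x) = 0 := ky _ _
    have hw : wx (ff^[L] x) = 0 := ky _ _
    constructor
    · refine hlt ((dist_nrm _).trans ?_)
      rw [hv, map_zero]; linarith
    · refine hlt ((dist_nrm _).trans ?_)
      rw [hw, map_zero]; linarith
  · have hN : ∀ i ≤ 2 * (L + 1), 9 / 10 < eta (ff^[i] x) ∧
        normSq (vv (ff^[i] x)) + normSq (ww (ff^[i] x)) < 16 := by
      intro i hi
      induction i with
      | zero => exact h0
      | succ i ih =>
        refine (hreg _ hi).resolve_left (not_lt.2 ?_)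
        rw [Function.iterate_succ_apply']
        exact eta_ff_nonneg (by linarith [(ih (by omega)).1])
    have hstep := fun i (hi : i ≤ 2 * (L + 1)) => north_step (hN i hi).1 (hN i hi).2
      ((hτ i hi).trans_le (min_le_right _ _))
    have hn : ∀ i ≤ 2 * (L + 1), normSq (vv (ff^[i + 1] x)) + normSq (ww (ff^[i + 1] x)) =
        256 * (normSq (vv (ff^[i] x)) + normSq (ww (ff^[i] x))) := by
      intro i hi
      rw [Function.iterate_succ_apply', (hstep i hi).2.2.1, (hstep i hi).2.2.2, map_mul, map_mul,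
        normSq_ofNat]
      ring
    have k1 := hhalf fun i hi => step_half (by
      have a1 := hn i (by omega)
      have a2 := (hN (i + 1) (by omega)).2
      rw [a1, normSq_eq_norm_sq, normSq_eq_norm_sq] at a2
      rw [nx, num, dec_zero]
      · simp
      · nlinarith [norm_nonneg (vv (ff^[i] x)), norm_nonneg (ww (ff^[i] x))]
      · nlinarith [norm_nonneg (vv (ff^[i] x)), norm_nonneg (ww (ff^[i] x))])
      (Or.inr (hN i (by omega)).1.le)
    have k2 : ∀ j ≤ L + 1, normSq (vv (ff^[L + 1] x)) + normSq (ww (ff^[L + 1] x)) ≤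
        (1 / 2) ^ j * (normSq (vv (ff^[L + 1 + j] x)) + normSq (ww (ff^[L + 1 + j] x))) := by
      intro j hj
      induction j with
      | zero => simp
      | succ j ih =>
        refine (ih (by omega)).trans ?_
        rw [← add_assoc, hn _ (by omega), pow_succ, mul_assoc]
        refine mul_le_mul_of_nonneg_left ?_ (by positivity)
        linarith [normSq_nonneg (vv (ff^[L + 1 + j] x)), normSq_nonneg (ww (ff^[L + 1 + j] x))]
    have k3 := (k2 _ le_rfl).trans
      (mul_le_mul_of_nonneg_left (hN (L + 1 + (L + 1)) (by omega)).2.le hp.le)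
    refine Or.inl ⟨fun hE => ?_, ?_⟩
    · have : eta (ff^[L + 1] x) ≤ 3 / 5 := hE
      linarith [(hN (L + 1) (by omega)).1]
    simp only [Prod.dist_eq, max_lt_iff]
    refine ⟨(hτ _ (by omega)).trans_le (min_le_left _ _),
      hlt ((dist_pN ?_).trans (by change 2 * normSq (xi _) ≤ _; linarith)), ?_⟩
    · change 0 ≤ eta _
      linarith [(hN (L + 1) (by omega)).1]
    rw [Function.iterate_succ_apply'] at k3 ⊢
    constructor
    · refine hlt ((dist_nrm _).trans ?_)
      rw [(hstep L (by omega)).1]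
      linarith [normSq_nonneg (ww (ff (ff^[L] x)))]
    · refine hlt ((dist_nrm _).trans ?_)
      rw [(hstep L (by omega)).2.1]
      linarith [normSq_nonneg (vv (ff (ff^[L] x)))]

instance : Nonempty MM := ⟨(t1, pN, pN, pN)⟩

theorem entropy_ff : Dynamics.coverEntropy ff Set.univ = 0 := by
  refine coverEntropy_eq_zero ff (t1, pN, pN, pN) (t1, pS, pN, pN) EE mapsTo_EE fun ε hε => ?_
  obtain ⟨c, hc0, hc1, hc⟩ := exists_c (ε := min ε (1 / 4)) (by positivity)
  obtain ⟨L, hL⟩ := exists_pow_lt_of_lt_one (x := ε ^ 2 / 32) (y := 1 / 2) (by positivity)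
    (by norm_num)
  refine ⟨_, card_bad_le ff {x | c ≤ hx x} _ _ (L + 1) (visits_bad hc0) fun x hx =>
    near_of hε hc1 hc ?_ x fun i hi => not_le.1 (hx i hi)⟩
  have : (0 : ℝ) < (1 / 2) ^ L := by positivity
  rw [pow_succ]
  linarith

end Crest.Agent.R123
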